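import Mathlib

/-!
# P237: the geometric Brascamp–Lieb inequality

For a decomposition of the identity `∑ c i • u i ⊗ u i = 1` by unit vectors and positive continuous
probability densities on the line, `∫ ∏ (p i (u i ⬝ y)) ^ c i ≤ 1`. The proof is Barthe's transport
to the Gaussian.
-/

namespace Vale.Agent.P237.AllN

open MeasureTheory Set Filter Topology Matrix
open scoped ENNReal

noncomputable section

variable {n : ℕ} {ι : Type} [Fintype ι]

/-- Unit vectors with weights decomposing the identity. -/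
structure Frame (u : ι → Fin n → ℝ) (c : ι → ℝ) : Prop where
  pos : ∀ i, 0 < c i
  unit : ∀ i, u i ⬝ᵥ u i = 1
  decomp : ∀ x, ∑ i, (c i * (u i ⬝ᵥ x)) • u i = x

namespace Frame

variable {u : ι → Fin n → ℝ} {c : ι → ℝ}

theorem sum_mul (h : Frame u c) (x y : Fin n → ℝ) :
    ∑ i, c i * (u i ⬝ᵥ x) * (u i ⬝ᵥ y) = x ⬝ᵥ y := by
  have h1 := congrArg (fun z => z ⬝ᵥ y) (h.decomp x)
  simp only [sum_dotProduct, smul_dotProduct, smul_eq_mul] at h1
  exact h1

theorem sum_sq (h : Frame u c) (x : Fin n → ℝ) : ∑ i, c i * (u i ⬝ᵥ x) ^ 2 = x ⬝ᵥ x := by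
  rw [← h.sum_mul x x]
  exact Finset.sum_congr rfl fun i _ => by ring

theorem eq_zero (h : Frame u c) {x : Fin n → ℝ} (hx : ∀ i, u i ⬝ᵥ x = 0) : x = 0 := by
  rw [← h.decomp x]
  simp [hx]

/-- The matrix `∑ w i • u i ⊗ u i`. -/
def mat (u : ι → Fin n → ℝ) (w : ι → ℝ) : Matrix (Fin n) (Fin n) ℝ :=
  ∑ i, w i • vecMulVec (u i) (u i)

theorem mat_mulVec (w : ι → ℝ) (x : Fin n → ℝ) :
    mat u w *ᵥ x = ∑ i, (w i * (u i ⬝ᵥ x)) • u i := by
  simp only [mat, sum_mulVec, smul_mulVec, vecMulVec_mulVec]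
  refine Finset.sum_congr rfl fun i _ => ?_
  ext j
  simp
  ring

/-- The determinant inequality. -/
theorem det_le (h : Frame u c) {t : ι → ℝ} (ht : ∀ i, 0 < t i) :
    ∏ i, t i ^ c i ≤ (mat u fun i => c i * t i).det := by
  set M := mat u fun i => c i * t i with hM
  have hA : M.IsHermitian := by
    ext a b
    simp [hM, mat, Matrix.sum_apply, vecMulVec_apply, mul_comm]
  set v : Fin n → Fin n → ℝ := fun k => ⇑(hA.eigenvectorBasis k) with hv
  have hone : ∀ k, v k ⬝ᵥ v k = 1 := by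
    intro k
    have h1 := hA.eigenvectorBasis.orthonormal.1 k
    have h2 : inner ℝ (hA.eigenvectorBasis k) (hA.eigenvectorBasis k) = (1 : ℝ) := by
      rw [real_inner_self_eq_norm_sq, h1, one_pow]
    rw [EuclideanSpace.inner_eq_star_dotProduct, star_trivial] at h2
    exact h2
  have hpars : ∀ i, ∑ k, (u i ⬝ᵥ v k) ^ 2 = 1 := by
    intro i
    have h1 := hA.eigenvectorBasis.sum_inner_mul_inner
      (WithLp.toLp 2 (u i)) (WithLp.toLp 2 (u i))
    rw [EuclideanSpace.inner_eq_star_dotProduct, star_trivial] at h1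
    simp only [h.unit i] at h1
    refine Eq.trans (Finset.sum_congr rfl fun k _ => ?_) h1
    rw [EuclideanSpace.inner_eq_star_dotProduct, EuclideanSpace.inner_eq_star_dotProduct,
      star_trivial, star_trivial, sq]
    simp only [hv, dotProduct_comm]
  have hev : ∀ k, hA.eigenvalues k = ∑ i, c i * (u i ⬝ᵥ v k) ^ 2 * t i := by
    intro k
    have h1 := congrArg (fun z => z ⬝ᵥ v k) (hA.mulVec_eigenvectorBasis k)
    simp only [hM, mat_mulVec, sum_dotProduct, smul_dotProduct, smul_eq_mul] at h1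
    rw [hone k, mul_one] at h1
    rw [← h1]
    exact Finset.sum_congr rfl fun i _ => by simp only [hv]; ring
  have hk : ∀ k, ∏ i, t i ^ (c i * (u i ⬝ᵥ v k) ^ 2) ≤ hA.eigenvalues k := fun k => by
    rw [hev k]
    exact Real.geom_mean_le_arith_mean_weighted _ _ _
      (fun i _ => mul_nonneg (h.pos i).le (sq_nonneg _))
      ((h.sum_sq (v k)).trans (hone k)) (fun i _ => (ht i).le)
  rw [hA.det_eq_prod_eigenvalues]
  refine le_trans (le_of_eq ?_) (Finset.prod_le_prod
    (fun k _ => Finset.prod_nonneg fun i _ => Real.rpow_nonneg (ht i).le _) fun k _ => hk k)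
  rw [Finset.prod_comm]
  refine Finset.prod_congr rfl fun i _ => ?_
  rw [← Real.rpow_sum_of_pos (ht i), ← Finset.mul_sum, hpars i, mul_one]

end Frame

/-- The density `exp (-π t²)`. -/
def gauss (t : ℝ) : ℝ := Real.exp (-Real.pi * t ^ 2)

theorem continuous_gauss : Continuous gauss := by unfold gauss; fun_prop

theorem gauss_pos (t : ℝ) : 0 < gauss t := Real.exp_pos _

theorem integrable_gauss : Integrable gauss := integrable_exp_neg_mul_sq Real.pi_pos

theorem integral_gauss : ∫ t, gauss t = 1 := by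
  simp only [gauss]
  rw [integral_gaussian, div_self Real.pi_ne_zero, Real.sqrt_one]

section Cdf

variable {p : ℝ → ℝ}

theorem hasDerivAt_cdf (hc : Continuous p) (hi : Integrable p) (t : ℝ) :
    HasDerivAt (fun s => ∫ x in Iic s, p x) (p t) t := by
  have e : (fun s => ∫ x in Iic s, p x) = fun s => (∫ x in Iic 0, p x) + ∫ x in (0)..s, p x := by
    funext s
    rw [← intervalIntegral.integral_Iic_sub_Iic hi.integrableOn hi.integrableOn]
    ring
  rw [e]
  exact (hc.integral_hasStrictDerivAt 0 t).hasDerivAt.const_add _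

theorem strictMono_cdf (hc : Continuous p) (hp : ∀ t, 0 < p t) (hi : Integrable p) :
    StrictMono fun s => ∫ x in Iic s, p x :=
  strictMono_of_hasDerivAt_pos (fun t => hasDerivAt_cdf hc hi t) hp

theorem tendsto_cdf (hi : Integrable p) (h1 : ∫ x, p x = 1) :
    Tendsto (fun s => ∫ x in Iic s, p x) atTop (𝓝 1) ∧
      Tendsto (fun s => ∫ x in Iic s, p x) atBot (𝓝 0) := by
  refine ⟨h1 ▸ (aecover_Iic tendsto_id).integral_tendsto_of_countably_generated hi, ?_⟩
  have h := ((aecover_Ioi (μ := volume) (tendsto_id (α := ℝ) (x := atBot))).integral_tendsto_of_countably_generated hi).const_sub 1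
  rw [h1, sub_self] at h
  refine h.congr fun s => ?_
  show 1 - ∫ x in Ioi s, p x = _
  rw [← h1, ← integral_add_compl (measurableSet_Iic (a := s)) hi, compl_Iic]
  ring

theorem range_cdf (hc : Continuous p) (hp : ∀ t, 0 < p t) (hi : Integrable p) (h1 : ∫ x, p x = 1) :
    range (fun s => ∫ x in Iic s, p x) = Ioo 0 1 := by
  set P := fun s => ∫ x in Iic s, p x
  obtain ⟨htop, hbot⟩ := tendsto_cdf hi h1
  have hm : StrictMono P := strictMono_cdf hc hp hi
  have hP : Continuous P := continuous_iff_continuousAt.2 fun t => (hasDerivAt_cdf hc hi t).continuousAt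
  ext y
  constructor
  · rintro ⟨t, rfl⟩
    constructor
    · exact lt_of_le_of_lt (hm.monotone.le_of_tendsto hbot (t - 1)) (hm (sub_one_lt t))
    · exact lt_of_lt_of_le (hm (lt_add_one t)) (hm.monotone.ge_of_tendsto htop (t + 1))
  · rintro ⟨h0, h1'⟩
    obtain ⟨a, ha⟩ := (hbot.eventually (eventually_lt_nhds h0)).exists
    obtain ⟨b, hb⟩ := (htop.eventually (eventually_gt_nhds h1')).exists
    exact mem_range_of_exists_le_of_exists_ge hP ⟨a, ha.le⟩ ⟨b, hb.le⟩

/-- Transport of a positive continuous density to the Gaussian. -/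
theorem exists_transport (hc : Continuous p) (hp : ∀ t, 0 < p t) (hi : Integrable p)
    (h1 : ∫ x, p x = 1) :
    ∃ T T' : ℝ → ℝ, (∀ t, HasDerivAt T (T' t) t) ∧ StrictMono T ∧
      ∀ t, 0 < T' t ∧ gauss (T t) * T' t = p t := by
  set P := fun s => ∫ x in Iic s, p x
  set G := fun s => ∫ x in Iic s, gauss x
  have hPm : StrictMono P := strictMono_cdf hc hp hi
  have hGm : StrictMono G := strictMono_cdf continuous_gauss gauss_pos integrable_gauss
  have hPr : range P = Ioo 0 1 := range_cdf hc hp hi h1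
  have hGr : range G = Ioo 0 1 := range_cdf continuous_gauss gauss_pos integrable_gauss integral_gauss
  have hex : ∀ t, ∃ s, G s = P t := fun t => by
    have : P t ∈ range G := hGr ▸ hPr ▸ mem_range_self t
    exact this
  choose T hT using hex
  have hTm : StrictMono T := fun a b hab => by
    rw [← hGm.lt_iff_lt, hT, hT]; exact hPm hab
  have hTs : Function.Surjective T := fun s => by
    have : G s ∈ range P := hPr ▸ hGr ▸ mem_range_self s
    obtain ⟨t, ht⟩ := this
    exact ⟨t, hGm.injective ((hT t).trans ht)⟩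
  have hTc : Continuous T := hTm.monotone.continuous_of_surjective hTs
  refine ⟨T, fun t => p t / gauss (T t), fun t => ?_, hTm,
    fun t => ⟨div_pos (hp t) (gauss_pos _), mul_div_cancel₀ _ (gauss_pos _).ne'⟩⟩
  rw [hasDerivAt_iff_tendsto_slope]
  have hlim : Tendsto T (𝓝[≠] t) (𝓝[≠] (T t)) :=
    tendsto_nhdsWithin_of_tendsto_nhds_of_eventually_within _
      ((hTc.tendsto t).mono_left nhdsWithin_le_nhds)
      (eventually_nhdsWithin_of_forall fun s hs => fun h => hs (hTm.injective h))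
  have hnum := hasDerivAt_iff_tendsto_slope.1 (hasDerivAt_cdf hc hi t)
  have hden := (hasDerivAt_iff_tendsto_slope.1
    (hasDerivAt_cdf continuous_gauss integrable_gauss (T t))).comp hlim
  refine (hnum.div hden (gauss_pos _).ne').congr' ?_
  filter_upwards [self_mem_nhdsWithin] with s (hs : s ≠ t)
  have hne : T s - T t ≠ 0 := sub_ne_zero.2 fun h => hs (hTm.injective h)
  have hne' : P s - P t ≠ 0 := sub_ne_zero.2 fun h => hs (hPm.injective h)
  simp only [Pi.div_apply, Function.comp_apply, slope_def_field]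
  change (P s - P t) / (s - t) / ((G (T s) - G (T t)) / (T s - T t)) = _
  rw [hT, hT]
  field_simp [sub_ne_zero.2 hs]

end Cdf

/-- The linear form of a vector. -/
def formCLM (v : Fin n → ℝ) : (Fin n → ℝ) →L[ℝ] ℝ := LinearMap.toContinuousLinearMap
  { toFun := fun z => v ⬝ᵥ z
    map_add' := dotProduct_add v
    map_smul' := fun a z => dotProduct_smul a v z }

@[simp] theorem formCLM_apply (v z : Fin n → ℝ) : formCLM v z = v ⬝ᵥ z := rfl

/-- The Gaussian density of the product space has integral one. -/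
theorem lintegral_gauss_dot :
    ∫⁻ z : Fin n → ℝ, ENNReal.ofReal (Real.exp (-Real.pi * (z ⬝ᵥ z))) = 1 := by
  have e : (fun z : Fin n → ℝ => Real.exp (-Real.pi * (z ⬝ᵥ z))) = fun z => ∏ j, gauss (z j) := by
    funext z
    simp only [gauss, ← Real.exp_sum, dotProduct, Finset.mul_sum, sq]
  have hint : Integrable fun z : Fin n → ℝ => ∏ j, gauss (z j) :=
    Integrable.fintype_prod fun _ => integrable_gauss
  rw [lintegral_congr fun z => congrArg ENNReal.ofReal (congrFun e z), ← ofReal_integral_eq_lintegral_ofReal hint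
    (Eventually.of_forall fun z => Finset.prod_nonneg fun j _ => (gauss_pos _).le),
    integral_fintype_prod_volume_eq_pow gauss, integral_gauss, one_pow, ENNReal.ofReal_one]

/-- The geometric Brascamp–Lieb inequality for probability densities. -/
theorem lintegral_prod_rpow_le_one {u : ι → Fin n → ℝ} {c : ι → ℝ} (h : Frame u c)
    {p : ι → ℝ → ℝ} (hc : ∀ i, Continuous (p i)) (hp : ∀ i t, 0 < p i t)
    (hi : ∀ i, Integrable (p i)) (h1 : ∀ i, ∫ t, p i t = 1) :
    ∫⁻ y : Fin n → ℝ, ENNReal.ofReal (∏ i, p i (u i ⬝ᵥ y) ^ c i) ≤ 1 := by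
  choose T T' hT hTm hT' using fun i => exists_transport (hc i) (hp i) (hi i) (h1 i)
  set θ : (Fin n → ℝ) → Fin n → ℝ := fun y => ∑ i, (c i * T i (u i ⬝ᵥ y)) • u i with hθ
  set θ' : (Fin n → ℝ) → (Fin n → ℝ) →L[ℝ] (Fin n → ℝ) :=
    fun y => ∑ i, (c i • T' i (u i ⬝ᵥ y) • formCLM (u i)).smulRight (u i) with hθ'
  have hd : ∀ y, HasFDerivAt θ (θ' y) y := fun y => by
    refine HasFDerivAt.fun_sum fun i _ => ?_
    exact (((hT i _).comp_hasFDerivAt y (formCLM (u i)).hasFDerivAt).const_mul (c i)).smul_const (u i)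
  have hinj : Function.Injective θ := by
    intro y z hyz
    have hsum : ∑ i, c i * ((u i ⬝ᵥ y - u i ⬝ᵥ z) * (T i (u i ⬝ᵥ y) - T i (u i ⬝ᵥ z))) = 0 := by
      have e1 : (θ y - θ z) ⬝ᵥ (y - z) = 0 := by rw [hyz, sub_self, zero_dotProduct]
      rw [← e1, hθ]
      simp only [← Finset.sum_sub_distrib, ← sub_smul, sum_dotProduct, smul_dotProduct,
        smul_eq_mul, dotProduct_sub]
      exact Finset.sum_congr rfl fun i _ => by ring
    have hnn : ∀ i, 0 ≤ (u i ⬝ᵥ y - u i ⬝ᵥ z) * (T i (u i ⬝ᵥ y) - T i (u i ⬝ᵥ z)) := fun i => by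
      rcases le_total (u i ⬝ᵥ y) (u i ⬝ᵥ z) with hh | hh
      · exact mul_nonneg_of_nonpos_of_nonpos (sub_nonpos.2 hh) (sub_nonpos.2 ((hTm i).monotone hh))
      · exact mul_nonneg (sub_nonneg.2 hh) (sub_nonneg.2 ((hTm i).monotone hh))
    refine sub_eq_zero.1 (h.eq_zero fun i => ?_)
    have hz := (Finset.sum_eq_zero_iff_of_nonneg
      fun i _ => mul_nonneg (h.pos i).le (hnn i)).1 hsum i (Finset.mem_univ i)
    rw [dotProduct_sub]
    rcases mul_eq_zero.1 ((mul_eq_zero.1 hz).resolve_left (h.pos i).ne') with h0 | h0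
    · exact h0
    · exact sub_eq_zero.2 ((hTm i).injective (sub_eq_zero.1 h0))
  have hpt : ∀ y, ENNReal.ofReal (∏ i, p i (u i ⬝ᵥ y) ^ c i)
      ≤ ENNReal.ofReal |(θ' y).det| * ENNReal.ofReal (Real.exp (-Real.pi * (θ y ⬝ᵥ θ y))) := by
    intro y
    rw [← ENNReal.ofReal_mul (abs_nonneg _)]
    refine ENNReal.ofReal_le_ofReal ?_
    set t : ι → ℝ := fun i => T' i (u i ⬝ᵥ y)
    set a : ι → ℝ := fun i => T i (u i ⬝ᵥ y)
    have ht : ∀ i, 0 < t i := fun i => (hT' i _).1
    have hdet : ∏ i, t i ^ c i ≤ |(θ' y).det| := by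
      refine (h.det_le ht).trans (le_trans (le_of_eq ?_) (le_abs_self _))
      rw [← LinearMap.det_toLin', ContinuousLinearMap.det]
      congr 1
      refine LinearMap.ext fun x => ?_
      rw [Matrix.toLin'_apply, Frame.mat_mulVec]
      simp [hθ', t, mul_assoc, smul_smul]
    have hsq : θ y ⬝ᵥ θ y ≤ ∑ i, c i * a i ^ 2 := by
      have e1 : θ y ⬝ᵥ θ y = ∑ i, c i * a i * (u i ⬝ᵥ θ y) := by
        conv_lhs => arg 1; rw [hθ]
        simp only [sum_dotProduct, smul_dotProduct, smul_eq_mul, a]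
      have e2 : ∑ i, c i * a i * (u i ⬝ᵥ θ y)
          ≤ ∑ i, ((c i * a i ^ 2) / 2 + (c i * (u i ⬝ᵥ θ y) ^ 2) / 2) :=
        Finset.sum_le_sum fun i _ => by
          have := mul_nonneg (h.pos i).le (sq_nonneg (a i - u i ⬝ᵥ θ y))
          nlinarith
      rw [Finset.sum_add_distrib, ← Finset.sum_div, ← Finset.sum_div, h.sum_sq] at e2
      linarith
    have hfac : ∏ i, p i (u i ⬝ᵥ y) ^ c i
        = Real.exp (-Real.pi * ∑ i, c i * a i ^ 2) * ∏ i, t i ^ c i := by
      rw [Finset.mul_sum, Real.exp_sum, ← Finset.prod_mul_distrib]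
      refine Finset.prod_congr rfl fun i _ => ?_
      rw [← (hT' i (u i ⬝ᵥ y)).2, Real.mul_rpow (gauss_pos _).le (ht i).le, gauss,
        ← Real.exp_mul]
      simp only [t, a]
      ring_nf
    rw [hfac, mul_comm]
    refine mul_le_mul hdet (Real.exp_le_exp.2 ?_) (Real.exp_pos _).le (abs_nonneg _)
    nlinarith [Real.pi_pos]
  refine (lintegral_mono hpt).trans ?_
  rw [← setLIntegral_univ, ← lintegral_image_eq_lintegral_abs_det_fderiv_mul volume MeasurableSet.univ
    (fun y _ => (hd y).hasFDerivWithinAt) hinj.injOn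
    (fun z => ENNReal.ofReal (Real.exp (-Real.pi * (z ⬝ᵥ z))))]
  exact (setLIntegral_le_lintegral _ _).trans lintegral_gauss_dot.le

end

end Vale.Agent.P237.AllN
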