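import Vale.Agent.P237.AllN.Defs
import Vale.Agent.P237.Euclid

/-!
# P237 in all dimensions: the unit ball and the constants
-/

namespace Vale.Agent.P237.AllN

open MeasureTheory Set Function
open scoped ENNReal Pointwise RealInnerProductSpace

variable {m : ℕ}

theorem toLp_unitBall (k : ℕ) :
    (WithLp.toLp 2 '' unitBall k : Set (EuclideanSpace ℝ (Fin k))) = Metric.closedBall 0 1 := by
  ext x
  rw [mem_closedBall_zero_iff]
  have e : WithLp.ofLp x ⬝ᵥ WithLp.ofLp x = ‖x‖ ^ 2 := by
    rw [EuclideanSpace.norm_sq_eq]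
    simp [dotProduct, sq]
  constructor
  · rintro ⟨z, hz, rfl⟩
    rw [← abs_norm, ← sq_le_one_iff_abs_le_one, ← e]
    exact hz
  · intro hx
    refine ⟨WithLp.ofLp x, ?_, by simp⟩
    show _ ≤ (1 : ℝ)
    rw [e]
    exact pow_le_one₀ (norm_nonneg x) hx

theorem isCompact_unitBall (k : ℕ) : IsCompact (unitBall k) := by
  have h := (isCompact_closedBall (0 : EuclideanSpace ℝ (Fin k)) 1).image
    (PiLp.continuous_ofLp 2 _)
  rwa [← toLp_unitBall, image_image, image_id'] at h

theorem convex_unitBall (k : ℕ) : Convex ℝ (unitBall k) := by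
  have h := (convex_closedBall (0 : EuclideanSpace ℝ (Fin k)) 1).linear_image
    (WithLp.linearEquiv 2 ℝ (Fin k → ℝ)).toLinearMap
  rw [← toLp_unitBall] at h
  simpa [image_image] using h

theorem cvx_unitBall (k : ℕ) : Full.Cvx (unitBall k) := by
  refine ⟨isCompact_unitBall k, convex_unitBall k, ?_⟩
  have hc : Continuous fun x : Pt k => x ⬝ᵥ x :=
    continuous_finsetSum _ fun i _ => (continuous_apply i).mul (continuous_apply i)
  exact hc.continuousAt.preimage_mem_nhds (Iic_mem_nhds (by simp))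

theorem body_unitBall (k : ℕ) : P227.Zono.Body (unitBall k) where
  compact := isCompact_unitBall k
  convex := convex_unitBall k
  interior_nonempty := ⟨0, mem_interior_iff_mem_nhds.2 (cvx_unitBall k).nhds⟩
  neg_mem := fun x hx => by
    show (-x) ⬝ᵥ (-x) ≤ 1
    rw [neg_dotProduct_neg]
    exact hx

theorem volume_unitBall (k : ℕ) : (volume (unitBall k)).toReal = unitBallVolume k := by
  rw [unitBallVolume, euclVolume, ← toLp_unitBall, ← (PiLp.volume_preserving_toLp (Fin k)).measure_preimage
      ((isCompact_unitBall k).image (PiLp.continuous_toLp 2 _)).measurableSet.nullMeasurableSet,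
      preimage_image_eq _ (WithLp.toLp_injective 2)]

theorem gain_unitBall_unit {u : EuclideanSpace ℝ (Fin (m + 1))} (hu : ‖u‖ = 1) :
    gain (unitBall (m + 1)) (WithLp.ofLp u) = unitBallVolume m := by
  rw [gain_eq_proj (isCompact_unitBall _) (convex_unitBall _) hu, toLp_unitBall]
  set U := (ℝ ∙ u)ᗮ
  have himg : U.orthogonalProjectionOnto '' Metric.closedBall 0 1 = Metric.closedBall (0 : U) 1 := by
    ext y
    rw [mem_closedBall_zero_iff]
    constructor
    · rintro ⟨x, hx, rfl⟩
      rw [mem_closedBall_zero_iff] at hx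
      exact (U.norm_orthogonalProjectionOnto_apply_le x).trans hx
    · intro hy
      exact ⟨y, by rw [mem_closedBall_zero_iff]; exact hy,
        Submodule.orthogonalProjectionOnto_mem_subspace_eq_self y⟩
  have : Fact (Module.finrank ℝ (EuclideanSpace ℝ (Fin (m + 1))) = m + 1) :=
    ⟨finrank_euclideanSpace_fin⟩
  have hdim : Module.finrank ℝ U = m :=
    Submodule.finrank_orthogonal_span_singleton (by
      intro h0; rw [h0, norm_zero] at hu; norm_num at hu)
  set φ := (stdOrthonormalBasis ℝ U).repr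
  have hball : φ ⁻¹' Metric.closedBall 0 1 = Metric.closedBall (0 : U) 1 := by
    ext y; simp [mem_closedBall_zero_iff]
  rw [himg, ← hball, φ.measurePreserving.measure_preimage measurableSet_closedBall.nullMeasurableSet]
  show unitBallVolume (Module.finrank ℝ U) = _
  rw [hdim]

theorem gain_unitBall (u : Pt (m + 1)) :
    gain (unitBall (m + 1)) u = unitBallVolume m * √(u ⬝ᵥ u) := by
  rcases eq_or_ne u 0 with rfl | hu
  · simp [gain_zero]
  set w : EuclideanSpace ℝ (Fin (m + 1)) := WithLp.toLp 2 u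
  have hw : ‖w‖ = √(u ⬝ᵥ u) := by
    rw [EuclideanSpace.norm_eq]
    simp [w, dotProduct, sq]
  have hw0 : 0 < ‖w‖ := norm_pos_iff.2 fun h => hu (by simpa [w] using congrArg WithLp.ofLp h)
  have h := gain_unitBall_unit (u := ‖w‖⁻¹ • w)
    (by rw [norm_smul, norm_inv, norm_norm, inv_mul_cancel₀ hw0.ne'])
  rw [WithLp.ofLp_smul, gain_smul (isCompact_unitBall _) (convex_unitBall _) _
    (inv_nonneg.2 hw0.le)] at h
  rw [← hw, ← h]
  show gain (unitBall (m + 1)) u = ‖w‖⁻¹ * gain (unitBall (m + 1)) u * ‖w‖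
  field_simp

theorem gainBody_unitBall (m : ℕ) :
    gainBody (unitBall (m + 1)) = unitBallVolume m • unitBall (m + 1) := by
  have hκ := unitBallVolume_pos m
  set κ := unitBallVolume m with hκd
  ext y
  rw [mem_smul_set_iff_inv_smul_mem₀ hκ.ne']
  show (∀ u, y ⬝ᵥ u ≤ gain (unitBall (m + 1)) u) ↔ (κ⁻¹ • y) ⬝ᵥ (κ⁻¹ • y) ≤ 1
  simp only [gain_unitBall, ← hκd, smul_dotProduct, dotProduct_smul, smul_eq_mul]
  have hyy : 0 ≤ y ⬝ᵥ y := Finset.sum_nonneg fun i _ => mul_self_nonneg _
  constructor
  · intro h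
    have h1 := h y
    rw [← mul_assoc, ← mul_inv, inv_mul_le_iff₀ (by positivity), mul_one]
    nlinarith [Real.sq_sqrt hyy, Real.sqrt_nonneg (y ⬝ᵥ y)]
  · intro h u
    rw [← mul_assoc, ← mul_inv, inv_mul_le_iff₀ (by positivity), mul_one] at h
    have hcs : (y ⬝ᵥ u) ^ 2 ≤ (y ⬝ᵥ y) * (u ⬝ᵥ u) := by
      simp only [dotProduct, ← pow_two]
      exact Finset.sum_mul_sq_le_sq_mul_sq Finset.univ y u
    have huu : 0 ≤ u ⬝ᵥ u := Finset.sum_nonneg fun i _ => mul_self_nonneg _
    have : (y ⬝ᵥ u) ^ 2 ≤ (κ * √(u ⬝ᵥ u)) ^ 2 := by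
      rw [mul_pow, Real.sq_sqrt huu, sq κ]
      exact hcs.trans (mul_le_mul_of_nonneg_right h huu)
    exact (le_abs_self _).trans (abs_le_of_sq_le_sq this (by positivity))

theorem pettyConst_eq (m : ℕ) :
    pettyConst (m + 1)
      = unitBallVolume m ^ (m + 1) * unitBallVolume (m + 1) / unitBallVolume (m + 1) ^ m := by
  have := (unitBallVolume_pos (m + 1)).ne'
  rw [pettyConst, Nat.add_sub_cancel, show 2 - ((m + 1 : ℕ) : ℤ) = 1 - (m : ℤ) by omega,
    zpow_sub₀ this, zpow_one, zpow_natCast, mul_div_assoc]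

theorem pettyConst_pos (m : ℕ) : 0 < pettyConst (m + 1) := by
  rw [pettyConst_eq]
  have := unitBallVolume_pos m
  have := unitBallVolume_pos (m + 1)
  positivity

/-- The ratio of the ball. -/
theorem ratio_unitBall (m : ℕ) : Full.ratio (unitBall (m + 1)) = pettyConst (m + 1) := by
  rw [Full.ratio, gainBody_unitBall, Measure.addHaar_smul, Module.finrank_fin_fun,
    ENNReal.toReal_mul, ENNReal.toReal_ofReal (abs_nonneg _),
    abs_of_nonneg (pow_nonneg (unitBallVolume_pos m).le _), volume_unitBall, pettyConst_eq]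

theorem continuous_semicircle : Continuous semicircle := by
  unfold semicircle
  fun_prop

theorem semicircle_nonneg (t : ℝ) : 0 ≤ semicircle t := Real.sqrt_nonneg _

theorem unitBallVolume_zero : unitBallVolume 0 = 1 := by simp [unitBallVolume_eq]

theorem unitBallVolume_one : unitBallVolume 1 = 2 := by
  rw [unitBallVolume_eq, pow_one, Nat.cast_one, show (1 : ℝ) / 2 + 1 = 1 / 2 + 1 from rfl,
    Real.Gamma_add_one (by norm_num), Real.Gamma_one_half_eq]
  field_simp [(Real.sqrt_pos.2 Real.pi_pos).ne']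

/-- The recursion for the moments of the semicircle. -/
theorem integral_semicircle_add_two (j : ℕ) :
    ((j : ℝ) + 3) * ∫ t in (-1 : ℝ)..1, semicircle t ^ (j + 2)
      = ((j : ℝ) + 2) * ∫ t in (-1 : ℝ)..1, semicircle t ^ j := by
  have hc : ∀ k : ℕ, Continuous fun t => semicircle t ^ k := fun k => continuous_semicircle.pow k
  have hd : ∀ t ∈ Ioo (-1 : ℝ) 1, HasDerivAt (fun t => t * semicircle t ^ (j + 2))
      (((j : ℝ) + 3) * semicircle t ^ (j + 2) - ((j : ℝ) + 2) * semicircle t ^ j) t := by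
    intro t ht
    have h1 : 0 < 1 - t ^ 2 := by nlinarith [ht.1, ht.2]
    have hs : 0 < semicircle t := Real.sqrt_pos.2 h1
    have hsq : semicircle t ^ 2 = 1 - t ^ 2 := Real.sq_sqrt h1.le
    have h2 : HasDerivAt semicircle (-t / semicircle t) t := by
      have := (((hasDerivAt_pow 2 t).const_sub 1).sqrt h1.ne')
      refine this.congr_deriv ?_
      show _ = -t / √(1 - t ^ 2)
      simp
      field_simp
    refine ((hasDerivAt_id t).mul (h2.pow (j + 2))).congr_deriv ?_
    show 1 * semicircle t ^ (j + 2)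
      + t * (((j + 2 : ℕ) : ℝ) * semicircle t ^ (j + 2 - 1) * (-t / semicircle t)) = _
    rw [show j + 2 - 1 = j + 1 by omega, pow_succ _ (j + 1), pow_succ _ j, Nat.cast_add, Nat.cast_two]
    field_simp
    linear_combination (-((j : ℝ) + 2)) * hsq
  have h := intervalIntegral.integral_eq_sub_of_hasDerivAt_of_le (by norm_num : (-1 : ℝ) ≤ 1)
    (continuous_id.mul (hc (j + 2))).continuousOn hd
    ((((hc (j + 2)).const_mul ((j : ℝ) + 3)).sub ((hc j).const_mul ((j : ℝ) + 2))).intervalIntegrable _ _)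
  rw [intervalIntegral.integral_sub (((hc (j + 2)).const_mul _).intervalIntegrable _ _)
    (((hc j).const_mul _).intervalIntegrable _ _), intervalIntegral.integral_const_mul,
    intervalIntegral.integral_const_mul] at h
  simp [semicircle] at h
  simp only [semicircle]
  linarith

theorem integral_semicircle_pow : ∀ j : ℕ,
    ∫ t in (-1 : ℝ)..1, semicircle t ^ j = unitBallVolume (j + 1) / unitBallVolume j
  | 0 => by norm_num [unitBallVolume_zero, unitBallVolume_one]
  | 1 => by
    simp only [pow_one, semicircle]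
    rw [integral_sqrt_one_sub_sq, unitBallVolume_add_two, unitBallVolume_zero, unitBallVolume_one]
    norm_num
  | j + 2 => by
    have h := integral_semicircle_add_two j
    rw [integral_semicircle_pow j] at h
    have := unitBallVolume_pos j
    have := Real.pi_pos
    rw [unitBallVolume_add_two j, show j + 2 + 1 = (j + 1) + 2 by omega,
      unitBallVolume_add_two (j + 1)]
    push_cast
    rw [← mul_right_inj' (show (j : ℝ) + 3 ≠ 0 by positivity), h]
    field_simp
    ring

/-- The two forms of the constant agree. -/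
theorem pettyConst_succ {b : ℕ} (hb : 1 ≤ b) :
    pettyConst (b + 1) * (∫ t in (-1 : ℝ)..1, semicircle t ^ b) ^ (b - 1)
      = pettyConst b * (∫ t in (-1 : ℝ)..1, semicircle t ^ (b - 1)) ^ b := by
  obtain ⟨c, rfl⟩ : ∃ c, b = c + 1 := ⟨b - 1, by omega⟩
  have := unitBallVolume_pos c
  have := unitBallVolume_pos (c + 1)
  have := unitBallVolume_pos (c + 2)
  rw [Nat.add_sub_cancel, integral_semicircle_pow, integral_semicircle_pow, pettyConst_eq,
    pettyConst_eq, div_pow, div_pow]
  field_simp
  ring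

end Vale.Agent.P237.AllN
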