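import Vale.Agent.P237.Numbers
import Vale.Agent.P237.Full.Min

/-!
# P237 in all dimensions: shared definitions and the two inputs of the induction

For a symmetric body `K ⊆ ℝⁿ` and a unit vector `u`, let `A` be the volume of the slices across `u`
and `V` the volume of `K`. The function `exp (-gauge² / 2)` has on the line of `u` the marginal
`lifted n A`; `liftEntropy n A` is the entropy of this marginal made into a probability density.
For the unit ball it is the Gaussian value `log (2 π e) / 2`.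
-/

namespace Vale.Agent.P237.AllN

open MeasureTheory Set

/-- The Euclidean unit ball in coordinates. -/
def unitBall (k : ℕ) : Set (Pt k) := {x | x ⬝ᵥ x ≤ 1}

/-- The constant in Petty's inequality, the value of the ratio at the ball. -/
noncomputable def pettyConst (n : ℕ) : ℝ :=
  unitBallVolume (n - 1) ^ n * unitBallVolume n ^ (2 - (n : ℤ))

/-- The radius of the slices of the unit ball. -/
noncomputable def semicircle (t : ℝ) : ℝ := √(1 - t ^ 2)

/-- The slice volumes, up to a constant, of a body with slice radius `r` on `[-1, 1]`. -/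
noncomputable def profileArea (b : ℕ) (r : ℝ → ℝ) : ℝ → ℝ :=
  (Icc (-1 : ℝ) 1).indicator fun t => r t ^ b

/-- The line marginal of the Gaussian lift of a body with slice volumes `A`. -/
noncomputable def lifted (n : ℕ) (A : ℝ → ℝ) (s : ℝ) : ℝ :=
  ∫ l in Ioi (0 : ℝ), l ^ n * Real.exp (-l ^ 2 / 2) * A (s / l)

/-- The entropy of the normalised marginal. -/
noncomputable def liftEntropy (n : ℕ) (A : ℝ → ℝ) : ℝ :=
  ∫ s, Real.negMulLog (lifted n A s / ∫ t, lifted n A t)

/-- The entropy threshold for volume `V` in dimension `n`: equality holds for balls. -/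
noncomputable def entropyLevel (n : ℕ) (V : ℝ) : ℝ :=
  Real.log (2 * Real.pi * Real.exp 1) / 2 + (Real.log V - Real.log (unitBallVolume n)) / n

/-- Input (B), entropy subadditivity along a decomposition of the identity: one of the directions
reaches the threshold. -/
def EntropyBound (m : ℕ) : Prop :=
  ∀ K : Set (Pt (m + 1)), P227.Zono.Body K →
  ∀ (N : ℕ) (u : Fin N → Pt (m + 1)) (c : Fin N → ℝ),
    (∀ i, 0 < c i) → (∀ i, u i ⬝ᵥ u i = 1) → (∑ i, c i = (m : ℝ) + 1) →
    (∀ x, ∑ i, (c i * (u i ⬝ᵥ x)) • u i = x) →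
  ∀ A : Fin N → ℝ → ℝ,
    (∀ i t, 0 ≤ A i t) → (∀ i, Measurable (A i)) → (∀ i, ∃ M, ∀ t, A i t ≤ M) →
    (∀ i t, 1 < |t| → A i t = 0) →
    (∀ i (φ : ℝ → ℝ), Continuous φ → ∫ x in K, φ (u i ⬝ᵥ x) = ∫ t, A i t * φ t) →
    ∃ i, entropyLevel (m + 1) (volume K).toReal ≤ liftEntropy (m + 1) (A i)

/-- Input (C), the one-dimensional lemma, for slices of dimension `b`: a profile over the
semicircle that reaches the entropy threshold and is at most as good as the semicircle for the
moment quotient is the semicircle. -/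
def SignLemma (b : ℕ) : Prop :=
  ∀ r : ℝ → ℝ, (∀ t, r (-t) = r t) → ConcaveOn ℝ (Icc (-1) 1) r →
    (∀ t ∈ Icc (-1 : ℝ) 1, semicircle t ≤ r t) →
    (∫ t in (-1 : ℝ)..1, r t ^ (b - 1)) ^ b * (∫ t in (-1 : ℝ)..1, semicircle t ^ b) ^ (b - 1)
      ≤ (∫ t in (-1 : ℝ)..1, semicircle t ^ (b - 1)) ^ b
          * (∫ t in (-1 : ℝ)..1, r t ^ b) ^ (b - 1) →
    entropyLevel (b + 1) (unitBallVolume b * ∫ t in (-1 : ℝ)..1, r t ^ b)
      ≤ liftEntropy (b + 1) (profileArea b r) →
    EqOn r semicircle (Ioo (-1) 1)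

/-- Petty's lower bound in dimension `n + 1`, in coordinates. -/
def RatioBound (n : ℕ) : Prop :=
  ∀ L : Set (Pt (n + 1)), Full.Cvx L → pettyConst (n + 1) ≤ Full.ratio L

/-- The equality cases in dimension `n + 1`, in coordinates. -/
def RatioEqual (n : ℕ) : Prop :=
  ∀ L : Set (Pt (n + 1)), Full.Cvx L → Full.ratio L ≤ pettyConst (n + 1) →
    ∃ (T : Pt (n + 1) ≃ₗ[ℝ] Pt (n + 1)) (a : Pt (n + 1)),
      L = (fun x => T x + a) '' unitBall (n + 1)

end Vale.Agent.P237.AllN
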