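import Vale.Agent.P237.AllN.Entropy
import Vale.Agent.P237.AllN.Defs

/-!
# P237: the entropy bound (input (B)) for every dimension at least two
-/

namespace Vale.Agent.P237.AllN

open MeasureTheory Set Filter Topology Function Matrix
open scoped ENNReal ContDiff
open Vale.Agent.P237.Full

noncomputable section

variable {k : ℕ}

/-- The reflection in the hyperplane orthogonal to `w`. -/
def mirror (w : Pt (k + 2)) : Pt (k + 2) →ₗ[ℝ] Pt (k + 2) where
  toFun x := x - (2 * (w ⬝ᵥ x) / (w ⬝ᵥ w)) • w
  map_add' x y := by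
    ext j
    simp only [dotProduct_add, Pi.sub_apply, Pi.add_apply, Pi.smul_apply, smul_eq_mul]
    ring
  map_smul' a x := by
    ext j
    simp only [dotProduct_smul, Pi.sub_apply, Pi.smul_apply, smul_eq_mul, RingHom.id_apply]
    ring

theorem mirror_mirror (w x : Pt (k + 2)) : mirror w (mirror w x) = x := by
  rcases eq_or_ne (w ⬝ᵥ w) 0 with h | h
  · simp [mirror, h]
  ext j
  simp only [mirror, LinearMap.coe_mk, AddHom.coe_mk, dotProduct_sub, dotProduct_smul,
    Pi.sub_apply, Pi.smul_apply, smul_eq_mul]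
  field_simp
  ring

theorem mirror_dot (w x y : Pt (k + 2)) : mirror w x ⬝ᵥ y = x ⬝ᵥ mirror w y := by
  simp only [mirror, LinearMap.coe_mk, AddHom.coe_mk, dotProduct_sub, sub_dotProduct,
    dotProduct_smul, smul_dotProduct, smul_eq_mul]
  rw [dotProduct_comm x w]
  ring

/-- Volume-preserving coordinates in which `u` is the last one. -/
theorem exists_adapted {u : Pt (k + 2)} (hu : u ⬝ᵥ u = 1) :
    ∃ T : (Pt (k + 1) × ℝ) ≃ₗ[ℝ] Pt (k + 2), MeasurePreserving T volume volume ∧
      ∀ p, u ⬝ᵥ T p = p.2 := by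
  set e : Pt (k + 2) := Pi.single (Fin.last (k + 1)) 1
  set w : Pt (k + 2) := e - u
  set R : Pt (k + 2) ≃ₗ[ℝ] Pt (k + 2) :=
    LinearEquiv.ofInvolutive (mirror w) (mirror_mirror w)
  have hRu : mirror w u = e := by
    have h1 : w ⬝ᵥ u = e ⬝ᵥ u - 1 := by simp only [w, sub_dotProduct, hu]
    have he : e ⬝ᵥ e = 1 := by simp [e]
    have h2 : w ⬝ᵥ w = 2 - 2 * (e ⬝ᵥ u) := by
      simp only [w, sub_dotProduct, dotProduct_sub, hu, he, dotProduct_comm u e]
      ring
    rcases eq_or_ne (w ⬝ᵥ w) 0 with h | h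
    · have hw : w = 0 := dotProduct_self_eq_zero.1 h
      have : e = u := sub_eq_zero.1 hw
      simp [mirror, hw, this]
    · show u - (2 * (w ⬝ᵥ u) / (w ⬝ᵥ w)) • w = e
      rw [show 2 * (w ⬝ᵥ u) / (w ⬝ᵥ w) = -1 by rw [div_eq_iff h, h1, h2]; ring]
      simp [w]
  refine ⟨(snocLin (k + 1)).trans R, ?_, fun p => ?_⟩
  · have hdet : LinearMap.det (mirror w) * LinearMap.det (mirror w) = 1 := by
      rw [← LinearMap.det_comp, show (mirror w).comp (mirror w) = LinearMap.id from
        LinearMap.ext (mirror_mirror w), LinearMap.det_id]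
    have hR : MeasurePreserving (mirror w) (volume : Measure (Pt (k + 2))) volume := by
      refine ⟨(mirror w).continuous_of_finiteDimensional.measurable, ?_⟩
      rw [Measure.map_linearMap_addHaar_eq_smul_addHaar volume (left_ne_zero_of_mul_eq_one hdet)]
      rcases mul_self_eq_one_iff.1 hdet with h | h <;> simp [h]
    exact hR.comp (measurePreserving_snocLin (k + 1))
  · show u ⬝ᵥ mirror w (snocLin (k + 1) p) = p.2
    rw [← mirror_dot, hRu, single_dotProduct, one_mul, snocLin_apply, Fin.snoc_last]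

variable {K : Set (Pt (k + 2))} {u : Pt (k + 2)} {T : (Pt (k + 1) × ℝ) ≃ₗ[ℝ] Pt (k + 2)}

/-- Integrals of functions of `u ⬝ x` over the body, from the slices. -/
theorem integral_slices (hK : P227.Zono.Body K) (hT : MeasurePreserving T volume volume)
    (hu : ∀ p, u ⬝ᵥ T p = p.2) {φ : ℝ → ℝ} (hφ : Continuous φ) :
    ∫ x in K, φ (u ⬝ᵥ x) = ∫ t, sliceVol (T.symm '' K) t * φ t := by
  set A := T.symm '' K with hAdef
  have hA : Solid A := measurePreserving_solid hK T
  have hpre : T ⁻¹' K = A := (LinearEquiv.image_symm_eq_preimage T K).symm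
  rw [← hT.setIntegral_preimage_emb T.toContinuousLinearEquiv.toHomeomorph.measurableEmbedding,
    hpre]
  simp only [hu]
  rw [← integral_indicator hA.compact.isClosed.measurableSet, Measure.volume_eq_prod,
    integral_prod_symm _ (by
      rw [integrable_indicator_iff hA.compact.isClosed.measurableSet]
      exact (hφ.comp continuous_snd).continuousOn.integrableOn_compact hA.compact)]
  refine integral_congr_ae (Eventually.of_forall fun t => ?_)
  have e : ∀ x : Pt (k + 1), A.indicator (fun p : Pt (k + 1) × ℝ => φ p.2) (x, t)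
      = (P237.slice A t).indicator (fun _ => φ t) x := fun x => by
    by_cases hx : (x, t) ∈ A
    · rw [indicator_of_mem hx, indicator_of_mem (show x ∈ P237.slice A t from hx)]
    · rw [indicator_of_notMem hx, indicator_of_notMem (show x ∉ P237.slice A t from hx)]
  show ∫ x, A.indicator (fun p : Pt (k + 1) × ℝ => φ p.2) (x, t) = _
  simp only [e]
  rw [integral_indicator_const _ (hA.isCompact_slice t).isClosed.measurableSet, smul_eq_mul]
  rfl

/-- A density of the marginal agrees with the slices almost everywhere. -/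
theorem ae_eq_sliceVol (hK : P227.Zono.Body K) (hT : MeasurePreserving T volume volume)
    (hu : ∀ p, u ⬝ᵥ T p = p.2) {A : ℝ → ℝ} (hA0 : ∀ t, 0 ≤ A t) (hAm : Measurable A)
    (hAb : ∃ M, ∀ t, A t ≤ M)
    (hA : ∀ φ : ℝ → ℝ, Continuous φ → ∫ x in K, φ (u ⬝ᵥ x) = ∫ t, A t * φ t) :
    ∀ᵐ t, A t = sliceVol (T.symm '' K) t := by
  set S := sliceVol (T.symm '' K)
  have hS : Solid (T.symm '' K) := measurePreserving_solid hK T
  obtain ⟨M, hM⟩ := hAb
  obtain ⟨C, hC⟩ := sliceVol_bound hS
  have hloc : ∀ {f : ℝ → ℝ}, Measurable f → (∀ t, 0 ≤ f t) → ∀ B, (∀ t, f t ≤ B) →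
      LocallyIntegrable f := fun {f} hf h0 B hB =>
    (locallyIntegrable_const B).mono hf.aestronglyMeasurable (Eventually.of_forall fun t => by
      rw [Real.norm_eq_abs, Real.norm_eq_abs, abs_of_nonneg (h0 t)]
      exact (hB t).trans (le_abs_self B))
  have l1 := hloc hAm hA0 M hM
  have l2 := hloc hS.measurable_sliceVol (fun t => (hC t).1) C fun t => (hC t).2
  have h := ae_eq_zero_of_integral_contDiff_smul_eq_zero (l1.sub l2) fun g hg hgc => by
    have i1 : Integrable fun t => g t * A t := by
      simpa only [smul_eq_mul] using l1.integrable_smul_left_of_hasCompactSupport hg.continuous hgc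
    have i2 : Integrable fun t => g t * S t := by
      simpa only [smul_eq_mul] using l2.integrable_smul_left_of_hasCompactSupport hg.continuous hgc
    simp only [Pi.sub_apply, smul_eq_mul, mul_sub]
    rw [integral_sub i1 i2, sub_eq_zero]
    simp only [mul_comm (g _)]
    exact (hA g hg.continuous).symm.trans (integral_slices hK hT hu hg.continuous)
  filter_upwards [h] with t ht
  exact sub_eq_zero.1 ht

/-- Almost everywhere equal slices give the same lift away from the origin. -/
theorem lifted_congr {n : ℕ} {A B : ℝ → ℝ} (h : ∀ᵐ t, A t = B t) {s : ℝ} (hs : s ≠ 0) :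
    lifted n A s = lifted n B s := by
  set N := {t | A t ≠ B t} \ {0}
  have hN : volume N = 0 := measure_mono_null (fun t ht => ht.1) (ae_iff.1 h)
  have himg : volume ((fun t => s / t) '' N) = 0 :=
    addHaar_image_eq_zero_of_differentiableOn_of_addHaar_eq_zero volume
      (fun t ht => ((differentiableAt_const s).div differentiableAt_id ht.2).differentiableWithinAt) hN
  refine setIntegral_congr_ae measurableSet_Ioi ?_
  filter_upwards [compl_mem_ae_iff.2 himg] with l hl (hl0 : 0 < l)
  by_cases hAB : A (s / l) = B (s / l)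
  · rw [hAB]
  · exact absurd ⟨s / l, ⟨hAB, div_ne_zero hs hl0.ne'⟩, div_div_cancel₀ hs⟩ hl

theorem level_eq (n : ℕ) (hn : 0 < n) {V : ℝ} (hV : 0 < V) :
    entropyLevel n V = (Real.log (gaussZ n V) + (n : ℝ) / 2) / n := by
  have hn' : (0 : ℝ) < n := Nat.cast_pos.2 hn
  have hG := Real.Gamma_pos_of_pos (show (0 : ℝ) < (n : ℝ) / 2 + 1 by positivity)
  rw [entropyLevel, gaussZ, unitBallVolume_eq, Real.log_mul (by positivity) hG.ne',
    Real.log_mul hV.ne' (by positivity), Real.log_rpow two_pos, Real.log_div (by positivity) hG.ne',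
    Real.log_pow, Real.log_sqrt Real.pi_pos.le, Real.log_mul (by positivity) (Real.exp_pos 1).ne',
    Real.log_exp, Real.log_mul two_ne_zero Real.pi_ne_zero]
  field_simp
  ring

theorem entropy_bound (k : ℕ) : EntropyBound (k + 1) := by
  intro K hK N u c hc hu _ hdec A hA0 hAm hAb _ hA
  have hF : Frame u c := ⟨hc, hu, hdec⟩
  choose T hT hTu using fun i => exists_adapted (hu i)
  obtain ⟨i, hi⟩ := exists_contact_entropy hK hF T hT hTu
  refine ⟨i, ?_⟩
  rw [level_eq _ (by omega) (Cvx.of_body hK).volume_pos]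
  refine hi.trans (le_of_eq ?_)
  set S := sliceVol ((T i).symm '' K)
  have hS : Solid ((T i).symm '' K) := measurePreserving_solid hK (T i)
  have hae := ae_eq_sliceVol hK (hT i) (hTu i) (hA0 i) (hAm i) (hAb i) (hA i)
  have hl : ∀ᵐ s, lifted (k + 2) (A i) s = lift k S s := by
    filter_upwards [Measure.ae_ne volume (0 : ℝ)] with s hs
    exact lifted_congr hae hs
  have hint : ∫ s, lifted (k + 2) (A i) s = gaussZ (k + 2) (volume K).toReal := by
    rw [integral_congr_ae hl, integral_eq_lintegral_of_nonneg_ae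
      (Eventually.of_forall fun s => lift_nonneg hS s) (continuous_lift hS).aestronglyMeasurable,
      lintegral_lift hK (hT i) (hTu i),
      ENNReal.toReal_ofReal (gaussZ_pos _ (Cvx.of_body hK).volume_pos).le]
  rw [liftEntropy, hint, ent]
  refine integral_congr_ae ?_
  filter_upwards [hl] with s hs
  rw [marginal, hs]

end

end Vale.Agent.P237.AllN
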