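import Vale.Agent.P237.AllN.Lift

/-!
# P237: some marginal of the Gaussian lift has entropy at least the average
-/

namespace Vale.Agent.P237.AllN

open MeasureTheory Set Filter Topology Function Matrix
open scoped ENNReal NNReal
open Vale.Agent.P237.Full

noncomputable section

variable {k : ℕ} {K : Set (Pt (k + 2))} {u : Pt (k + 2)} {T : (Pt (k + 1) × ℝ) ≃ₗ[ℝ] Pt (k + 2)}

theorem lintegral_lift (hK : P227.Zono.Body K) (hT : MeasurePreserving T volume volume)
    (hu : ∀ p, u ⬝ᵥ T p = p.2) :
    ∫⁻ s, ENNReal.ofReal (lift k (sliceVol (T.symm '' K)) s)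
      = ENNReal.ofReal (gaussZ (k + 2) (volume K).toReal) := by
  have h := lintegral_marginal hK hT hu (φ := fun _ => 1) measurable_const
  simp only [mul_one] at h
  rw [← h, lintegral_liftDens hK]

/-- The marginal is a continuous positive probability density with integrable entropy. -/
theorem marginal_facts (hK : P227.Zono.Body K) (hT : MeasurePreserving T volume volume)
    (hu : ∀ p, u ⬝ᵥ T p = p.2) :
    let p := marginal k (sliceVol (T.symm '' K)) (volume K).toReal
    Continuous p ∧ (∀ s, 0 < p s) ∧ Integrable p ∧ (∫ s, p s = 1) ∧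
      Integrable fun s => Real.negMulLog (p s) := by
  intro p
  have hA : Solid (T.symm '' K) := measurePreserving_solid hK T
  have hZ := gaussZ_pos (k + 2) (Cvx.of_body hK).volume_pos
  have hc : Continuous p := (continuous_lift hA).div_const _
  have hp : ∀ s, 0 < p s := fun s => div_pos (lift_pos hA s) hZ
  have hl : ∫⁻ s, ENNReal.ofReal (p s) = 1 := by
    simp only [p, marginal, div_eq_mul_inv, ENNReal.ofReal_mul (lift_nonneg hA _),
      ENNReal.ofReal_inv_of_pos hZ]
    rw [lintegral_mul_const _ ((continuous_lift hA).measurable.ennreal_ofReal),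
      lintegral_lift hK hT hu, ENNReal.mul_inv_cancel (ENNReal.ofReal_pos.2 hZ).ne'
      ENNReal.ofReal_ne_top]
  have hi : Integrable p := ⟨hc.aestronglyMeasurable, by
    rw [hasFiniteIntegral_iff_ofReal (Eventually.of_forall fun s => (hp s).le), hl]
    exact ENNReal.one_lt_top⟩
  refine ⟨hc, hp, hi, ?_, ?_⟩
  · rw [integral_eq_lintegral_of_nonneg_ae (Eventually.of_forall fun s => (hp s).le)
      hc.aestronglyMeasurable, hl, ENNReal.toReal_one]
  obtain ⟨C, a, hC0, ha, hle⟩ := lift_le hA
  set D := C / gaussZ (k + 2) (volume K).toReal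
  have hD : 0 ≤ D := div_nonneg hC0 hZ.le
  have hpD : ∀ s, p s ≤ D * Real.exp (-a * s ^ 2) := fun s => by
    simp only [p, marginal, D, div_mul_eq_mul_div]
    exact div_le_div_of_nonneg_right (hle s) hZ.le
  refine Integrable.mono'
    (((integrable_exp_neg_mul_sq (half_pos ha)).const_mul (2 * Real.sqrt D)).add
      ((integrable_exp_neg_mul_sq (mul_pos two_pos ha)).const_mul (D ^ 2)))
    (Real.continuous_negMulLog.comp hc).aestronglyMeasurable (Eventually.of_forall fun s => ?_)
  have h1 : |Real.negMulLog (p s)| ≤ 2 * Real.sqrt (p s) + p s ^ 2 := by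
    rw [Real.negMulLog, abs_le]
    have hs := Real.sqrt_pos.2 (hp s)
    have hsq := Real.mul_self_sqrt (hp s).le
    have hup : p s * Real.log (p s) ≤ p s ^ 2 := by
      rw [sq]
      exact mul_le_mul_of_nonneg_left (Real.log_le_self (hp s).le) (hp s).le
    have hdown : -(2 * Real.sqrt (p s)) ≤ p s * Real.log (p s) := by
      have hl2 := Real.log_le_sub_one_of_pos (inv_pos.2 hs)
      rw [Real.log_inv, Real.log_sqrt (hp s).le] at hl2
      have h2 : p s * (Real.sqrt (p s))⁻¹ = Real.sqrt (p s) := by
        rw [← div_eq_mul_inv, Real.div_sqrt]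
      nlinarith [mul_le_mul_of_nonneg_left hl2 (hp s).le, hp s]
    constructor <;> nlinarith [hs, sq_nonneg (p s)]
  rw [Real.norm_eq_abs]
  refine h1.trans (add_le_add (le_trans (le_of_eq rfl) ?_) ?_)
  · calc 2 * Real.sqrt (p s) ≤ 2 * Real.sqrt (D * Real.exp (-a * s ^ 2)) :=
          mul_le_mul_of_nonneg_left (Real.sqrt_le_sqrt (hpD s)) two_pos.le
      _ = 2 * Real.sqrt D * Real.exp (-(a / 2) * s ^ 2) := by
          rw [Real.sqrt_mul hD, ← Real.exp_half, mul_assoc]
          ring_nf
  · calc p s ^ 2 ≤ (D * Real.exp (-a * s ^ 2)) ^ 2 := pow_le_pow_left₀ (hp s).le (hpD s) 2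
      _ = D ^ 2 * Real.exp (-(2 * a) * s ^ 2) := by
          rw [mul_pow, ← Real.exp_nat_mul]
          push_cast
          ring_nf

/-- Integrals of functions of `u ⬝ y` against the lift. -/
theorem integral_lift_comp (hK : P227.Zono.Body K) (hT : MeasurePreserving T volume volume)
    (hu : ∀ p, u ⬝ᵥ T p = p.2) {f : ℝ → ℝ} (hf : Measurable f)
    (hfi : Integrable fun s => lift k (sliceVol (T.symm '' K)) s * f s) :
    Integrable (fun y => liftDens K y * f (u ⬝ᵥ y)) ∧
      ∫ y, liftDens K y * f (u ⬝ᵥ y) = ∫ s, lift k (sliceVol (T.symm '' K)) s * f s := by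
  set L := lift k (sliceVol (T.symm '' K))
  have hA : Solid (T.symm '' K) := measurePreserving_solid hK T
  set ν := (volume : Measure (Pt (k + 2))).withDensity fun y => ENNReal.ofReal (liftDens K y)
  have hd : Measurable fun y : Pt (k + 2) => u ⬝ᵥ y := (Full.continuous_dot u).measurable
  have hmap : ν.map (fun y => u ⬝ᵥ y) = volume.withDensity fun s => ENNReal.ofReal (L s) := by
    refine Measure.ext fun S hS => ?_
    rw [Measure.map_apply hd hS, withDensity_apply _ (hd hS), withDensity_apply _ hS,
      ← lintegral_indicator (hd hS), ← lintegral_indicator hS]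
    have h := lintegral_marginal hK hT hu (φ := S.indicator 1) (measurable_one.indicator hS)
    refine Eq.trans (lintegral_congr fun y => ?_) (h.trans (lintegral_congr fun s => ?_))
    · by_cases hy : u ⬝ᵥ y ∈ S
      · rw [indicator_of_mem (show y ∈ (fun y => u ⬝ᵥ y) ⁻¹' S from hy), indicator_of_mem hy]
        simp
      · rw [indicator_of_notMem (show y ∉ (fun y => u ⬝ᵥ y) ⁻¹' S from hy), indicator_of_notMem hy,
          mul_zero]
    · by_cases hs : s ∈ S
      · simp [indicator_of_mem hs, L]
      · simp [indicator_of_notMem hs, L]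
  have hmL : Measurable fun s => ENNReal.ofReal (L s) := (continuous_lift hA).measurable.ennreal_ofReal
  have hmF : Measurable fun y => ENNReal.ofReal (liftDens K y) :=
    (continuous_liftDens hK).measurable.ennreal_ofReal
  have hL : ∀ s, (ENNReal.ofReal (L s)).toReal = L s := fun s =>
    ENNReal.toReal_ofReal (lift_nonneg hA s)
  have hF : ∀ y, (ENNReal.ofReal (liftDens K y)).toReal = liftDens K y := fun y =>
    ENNReal.toReal_ofReal (Real.exp_pos _).le
  have hI : Integrable f (ν.map fun y => u ⬝ᵥ y) := by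
    rw [hmap, integrable_withDensity_iff_integrable_smul' hmL
      (Eventually.of_forall fun s => ENNReal.ofReal_lt_top)]
    simpa only [hL, smul_eq_mul] using hfi
  have hI' := (integrable_map_measure hf.aestronglyMeasurable hd.aemeasurable).1 hI
  rw [integrable_withDensity_iff_integrable_smul' hmF
    (Eventually.of_forall fun s => ENNReal.ofReal_lt_top)] at hI'
  simp only [hF, smul_eq_mul, Function.comp_apply] at hI'
  refine ⟨hI', ?_⟩
  have h := integral_map hd.aemeasurable (μ := ν) (f := f) hI.aestronglyMeasurable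
  rw [hmap, integral_withDensity_eq_integral_toReal_smul hmL
      (Eventually.of_forall fun s => ENNReal.ofReal_lt_top),
    integral_withDensity_eq_integral_toReal_smul hmF
      (Eventually.of_forall fun s => ENNReal.ofReal_lt_top)] at h
  simpa only [hF, hL, smul_eq_mul] using h.symm

variable {ι : Type} [Fintype ι]

theorem Frame.sum_weights {n : ℕ} {u : ι → Fin n → ℝ} {c : ι → ℝ} (h : Frame u c) :
    ∑ i, c i = n := by
  classical
  calc ∑ i, c i = ∑ i, c i * ∑ j, (u i ⬝ᵥ Pi.single j 1) ^ 2 := Finset.sum_congr rfl fun i _ => by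
        have e : ∑ j, (u i ⬝ᵥ Pi.single j 1) ^ 2 = u i ⬝ᵥ u i := by
          simp only [dotProduct_single, mul_one, sq]
          rfl
        rw [e, h.unit i, mul_one]
    _ = ∑ j : Fin n, ∑ i, c i * (u i ⬝ᵥ Pi.single j 1) ^ 2 := by
        simp only [Finset.mul_sum]; exact Finset.sum_comm
    _ = ∑ _j : Fin n, (1 : ℝ) := Finset.sum_congr rfl fun j _ => by
        rw [h.sum_sq, dotProduct_single, Pi.single_eq_same, mul_one]
    _ = n := by simp

/-- The entropy of the lift is at most the weighted sum of the entropies of its marginals. -/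
theorem entropy_le_sum (hK : P227.Zono.Body K) {u : ι → Pt (k + 2)} {c : ι → ℝ} (h : Frame u c)
    (T : ι → (Pt (k + 1) × ℝ) ≃ₗ[ℝ] Pt (k + 2))
    (hT : ∀ i, MeasurePreserving (T i) volume volume) (hu : ∀ i p, u i ⬝ᵥ T i p = p.2) :
    Real.log (gaussZ (k + 2) (volume K).toReal) + ((k + 2 : ℕ) : ℝ) / 2
      ≤ ∑ i, c i * ent (marginal k (sliceVol ((T i).symm '' K)) (volume K).toReal) := by
  set V := (volume K).toReal
  set Z := gaussZ (k + 2) V with hZdef
  have hZ : 0 < Z := gaussZ_pos _ (Cvx.of_body hK).volume_pos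
  set p : ι → ℝ → ℝ := fun i => marginal k (sliceVol ((T i).symm '' K)) V
  have hp : ∀ i, Continuous (p i) ∧ (∀ s, 0 < p i s) ∧ Integrable (p i) ∧ (∫ s, p i s = 1) ∧
      Integrable (fun s => Real.negMulLog (p i s)) := fun i => marginal_facts hK (hT i) (hu i)
  have hA : ∀ i, Solid ((T i).symm '' K) := fun i => measurePreserving_solid hK (T i)
  set q : Pt (k + 2) → ℝ := fun y => ∏ i, p i (u i ⬝ᵥ y) ^ c i
  have hq0 : ∀ y, 0 < q y := fun y =>
    Finset.prod_pos fun i _ => Real.rpow_pos_of_pos ((hp i).2.1 _) _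
  have hqc : Continuous q := continuous_finsetProd _ fun i _ =>
    ((hp i).1.comp (Full.continuous_dot _)).rpow_const fun y => Or.inl ((hp i).2.1 _).ne'
  have hql := lintegral_prod_rpow_le_one h (fun i => (hp i).1) (fun i => (hp i).2.1)
    (fun i => (hp i).2.2.1) (fun i => (hp i).2.2.2.1)
  have hqi : Integrable q := ⟨hqc.aestronglyMeasurable, by
    rw [hasFiniteIntegral_iff_ofReal (Eventually.of_forall fun y => (hq0 y).le)]
    exact hql.trans_lt ENNReal.one_lt_top⟩
  have hq1 : ∫ y, q y ≤ 1 := by
    rw [integral_eq_lintegral_of_nonneg_ae (Eventually.of_forall fun y => (hq0 y).le)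
      hqc.aestronglyMeasurable]
    exact ENNReal.toReal_le_of_le_ofReal zero_le_one (by rwa [ENNReal.ofReal_one])
  have hterm : ∀ i, Integrable (fun y => liftDens K y * Real.log (p i (u i ⬝ᵥ y))) ∧
      ∫ y, liftDens K y * Real.log (p i (u i ⬝ᵥ y)) = Z * -ent (p i) := by
    intro i
    have e : (fun s => lift k (sliceVol ((T i).symm '' K)) s * Real.log (p i s))
        = fun s => Z * -Real.negMulLog (p i s) := by
      funext s
      have hl : lift k (sliceVol ((T i).symm '' K)) s = Z * p i s := by
        simp only [p, marginal, ← hZdef]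
        field_simp
      rw [hl, Real.negMulLog]
      ring
    obtain ⟨h1, h2⟩ := integral_lift_comp hK (hT i) (hu i) (f := fun s => Real.log (p i s))
      (Real.measurable_log.comp (hp i).1.measurable) (by rw [e]; exact (hp i).2.2.2.2.neg.const_mul Z)
    refine ⟨h1, ?_⟩
    rw [h2, e, integral_const_mul, integral_neg, ent]
  obtain ⟨hgi, hgv⟩ := second_moment hK
  have hFi := integrable_liftDens hK
  have hI1 : Integrable fun y => ∑ i, c i * (liftDens K y * Real.log (p i (u i ⬝ᵥ y))) :=
    integrable_finsetSum _ fun i _ => (hterm i).1.const_mul _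
  set g : Pt (k + 2) → ℝ := fun y => ∑ i, c i * (liftDens K y * Real.log (p i (u i ⬝ᵥ y)))
    + (gauge K y ^ 2 * liftDens K y / 2 + liftDens K y * Real.log Z)
  have hpt : ∀ y, g y ≤ Z * q y - liftDens K y := by
    intro y
    have hF : 0 < liftDens K y := Real.exp_pos _
    have hlog := Real.log_le_sub_one_of_pos (div_pos (mul_pos hZ (hq0 y)) hF)
    rw [Real.log_div (mul_pos hZ (hq0 y)).ne' hF.ne', Real.log_mul hZ.ne' (hq0 y).ne',
      show Real.log (liftDens K y) = -gauge K y ^ 2 / 2 from Real.log_exp _] at hlog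
    have hlq : Real.log (q y) = ∑ i, c i * Real.log (p i (u i ⬝ᵥ y)) := by
      rw [Real.log_prod (fun i _ => (Real.rpow_pos_of_pos ((hp i).2.1 _) _).ne')]
      exact Finset.sum_congr rfl fun i _ => Real.log_rpow ((hp i).2.1 _) _
    have h2 := mul_le_mul_of_nonneg_left hlog hF.le
    rw [hlq, mul_sub, mul_sub, mul_add, Finset.mul_sum, mul_div_cancel₀ _ hF.ne', mul_one] at h2
    have e : ∑ i, c i * (liftDens K y * Real.log (p i (u i ⬝ᵥ y)))
        = ∑ i, liftDens K y * (c i * Real.log (p i (u i ⬝ᵥ y))) :=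
      Finset.sum_congr rfl fun i _ => by ring
    simp only [g, e]
    linarith
  have hgI : Integrable g := hI1.add ((hgi.div_const 2).add (hFi.mul_const _))
  have hint := integral_mono hgI ((hqi.const_mul Z).sub hFi) hpt
  simp only [g] at hint
  have hI2 : Integrable fun y => gauge K y ^ 2 * liftDens K y / 2 + liftDens K y * Real.log Z :=
    (hgi.div_const 2).add (hFi.mul_const _)
  simp only [Pi.sub_apply] at hint
  rw [integral_add hI1 hI2, integral_sub (hqi.const_mul Z) hFi,
    integral_add (hgi.div_const 2) (hFi.mul_const _), integral_finsetSum _ fun i _ => (hterm i).1.const_mul _,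
    integral_div, hgv, integral_mul_const, integral_liftDens hK, integral_const_mul] at hint
  simp only [integral_const_mul, (hterm _).2] at hint
  have e : ∑ i, c i * (Z * -ent (p i)) = -(Z * ∑ i, c i * ent (p i)) := by
    rw [Finset.mul_sum, ← Finset.sum_neg_distrib]
    exact Finset.sum_congr rfl fun i _ => by ring
  rw [e] at hint
  refine le_of_mul_le_mul_left ?_ hZ
  have := mul_le_mul_of_nonneg_left hq1 hZ.le
  linarith

/-- Some direction of the frame has marginal entropy at least the average. -/
theorem exists_contact_entropy (hK : P227.Zono.Body K) {u : ι → Pt (k + 2)} {c : ι → ℝ}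
    (h : Frame u c) (T : ι → (Pt (k + 1) × ℝ) ≃ₗ[ℝ] Pt (k + 2))
    (hT : ∀ i, MeasurePreserving (T i) volume volume) (hu : ∀ i p, u i ⬝ᵥ T i p = p.2) :
    ∃ i, (Real.log (gaussZ (k + 2) (volume K).toReal) + ((k + 2 : ℕ) : ℝ) / 2) / ((k + 2 : ℕ) : ℝ)
      ≤ ent (marginal k (sliceVol ((T i).symm '' K)) (volume K).toReal) := by
  set B := Real.log (gaussZ (k + 2) (volume K).toReal) + ((k + 2 : ℕ) : ℝ) / 2
  have hn : (0 : ℝ) < ((k + 2 : ℕ) : ℝ) := by positivity
  have hne : (Finset.univ : Finset ι).Nonempty := by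
    rw [Finset.univ_nonempty_iff]
    by_contra hh
    rw [not_nonempty_iff] at hh
    have := h.sum_weights
    rw [Finset.univ_eq_empty, Finset.sum_empty] at this
    exact hn.ne this
  obtain ⟨i, -, hi⟩ := Finset.exists_le_of_sum_le hne
    (f := fun i => c i * (B / ((k + 2 : ℕ) : ℝ)))
    (g := fun i => c i * ent (marginal k (sliceVol ((T i).symm '' K)) (volume K).toReal)) (by
      rw [← Finset.sum_mul, h.sum_weights, mul_div_cancel₀ _ hn.ne']
      exact entropy_le_sum hK h T hT hu)
  exact ⟨i, le_of_mul_le_mul_left hi (h.pos i)⟩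

end

end Vale.Agent.P237.AllN
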