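import Vale.Agent.P237.AllN.Ball
import Vale.Agent.P237.Full.Petty

/-!
# P237 in all dimensions: Petty's inequality for projection bodies from the bound on the ratio
-/

namespace Vale.Agent.P237.AllN

open MeasureTheory Set Function Topology Full
open scoped Pointwise RealInnerProductSpace

/-- Petty's inequality in dimension `m + 1`, given the bound and the equality cases in coordinates. -/
theorem petty_of {m : ℕ} (hB : RatioBound m) (hE : RatioEqual m)
    {K : Set (EuclideanSpace ℝ (Fin (m + 1)))} (hK : IsCompact K)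
    (hc : Convex ℝ K) (hi : (interior K).Nonempty) :
    pettyConst (m + 1) * euclVolume (m + 1) K ^ m ≤ euclVolume (m + 1) (projBody K) ∧
      (euclVolume (m + 1) (projBody K) = pettyConst (m + 1) * euclVolume (m + 1) K ^ m ↔
        ∃ (T : EuclideanSpace ℝ (Fin (m + 1)) ≃ₗ[ℝ] EuclideanSpace ℝ (Fin (m + 1)))
          (a : EuclideanSpace ℝ (Fin (m + 1))),
          K = (fun x => T x + a) '' Metric.closedBall 0 1) := by
  set K' := WithLp.ofLp '' K
  have hKK : WithLp.toLp 2 '' K' = K := by simp [K', image_image]
  have hK' : IsCompact K' := hK.image (PiLp.continuous_ofLp 2 _)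
  have hc' : Convex ℝ K' := hc.linear_image (coords (m + 1)).toLinearMap
  obtain ⟨p, hp⟩ := hi
  set v : Pt (m + 1) := -WithLp.ofLp p
  set L := (fun x => x + v) '' K'
  have hL : Cvx L := by
    refine ⟨hK'.image (continuous_id.add continuous_const), ?_, ?_⟩
    · simpa [L, add_comm] using hc'.translate v
    · have hF : Continuous fun z : Pt (m + 1) => WithLp.toLp 2 (z - v) :=
        (PiLp.continuous_toLp 2 _).comp (continuous_id.sub continuous_const)
      have h0 : K ∈ 𝓝 (WithLp.toLp 2 ((0 : Pt (m + 1)) - v)) := by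
        simpa [v] using mem_interior_iff_mem_nhds.1 hp
      refine Filter.mem_of_superset (hF.continuousAt h0) fun z hz => ?_
      exact ⟨z - v, ⟨_, hz, rfl⟩, sub_add_cancel z v⟩
  have hvolL : (volume L).toReal = euclVolume (m + 1) K := by
    rw [euclVolume, ← hKK, volume_toLp hK'.measurableSet, volume_translate]
  have hproj : euclVolume (m + 1) (projBody K) = (volume (gainBody K')).toReal := by
    rw [euclVolume, ← hKK, projBody_eq hK' hc', volume_toLp (isClosed_gainBody _).measurableSet]
  have hpos : 0 < euclVolume (m + 1) K := hvolL ▸ hL.volume_pos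
  have hratio : ratio L = euclVolume (m + 1) (projBody K) / euclVolume (m + 1) K ^ m := by
    rw [ratio_translate, ratio, hproj, ← hvolL, volume_translate]
  have h1 := hB L hL
  have h2 := hE L hL
  rw [hratio, le_div_iff₀ (pow_pos hpos m)] at h1
  rw [hratio, div_le_iff₀ (pow_pos hpos m)] at h2
  refine ⟨h1, fun h => ?_, ?_⟩
  · obtain ⟨T, a, hT⟩ := h2 h.le
    refine ⟨(coords (m + 1)).trans (T.trans (coords (m + 1)).symm), WithLp.toLp 2 (a - v), ?_⟩
    have e : K' = (fun x => x - v) '' L := by
      simp only [L, image_image, add_sub_cancel_right, image_id']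
    rw [← hKK, e, hT, ← toLp_unitBall]
    simp only [image_image]
    refine image_congr fun x _ => ?_
    rw [add_sub_assoc]
    rfl
  · rintro ⟨T, a, hT⟩
    have e : K' = (fun x => x + WithLp.ofLp a) ''
        (((coords (m + 1)).symm.trans (T.trans (coords (m + 1)))) '' unitBall (m + 1)) := by
      simp only [K', hT, ← toLp_unitBall, image_image]
      rfl
    have hr : ratio L = pettyConst (m + 1) := by
      rw [ratio_translate, e, ratio_translate, ratio_image, ratio_unitBall]
    rw [hratio, div_eq_iff (pow_pos hpos m).ne'] at hr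
    exact hr

/-- Petty's inequality in every dimension at least three, given the bounds in coordinates. -/
theorem petty_all_of (h : ∀ m, 2 ≤ m → RatioBound m ∧ RatioEqual m) {n : ℕ} (hn : 3 ≤ n)
    {K : Set (EuclideanSpace ℝ (Fin n))} (hK : IsCompact K)
    (hc : Convex ℝ K) (hi : (interior K).Nonempty) :
    unitBallVolume (n - 1) ^ n * unitBallVolume n ^ (2 - (n : ℤ)) * euclVolume n K ^ (n - 1)
        ≤ euclVolume n (projBody K) ∧
      (euclVolume n (projBody K)
          = unitBallVolume (n - 1) ^ n * unitBallVolume n ^ (2 - (n : ℤ)) * euclVolume n K ^ (n - 1) ↔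
        ∃ (T : EuclideanSpace ℝ (Fin n) ≃ₗ[ℝ] EuclideanSpace ℝ (Fin n))
          (a : EuclideanSpace ℝ (Fin n)), K = (fun x => T x + a) '' Metric.closedBall 0 1) := by
  obtain ⟨m, rfl⟩ : ∃ m, n = m + 1 := ⟨n - 1, by omega⟩
  obtain ⟨hB, hE⟩ := h m (by omega)
  exact petty_of hB hE hK hc hi

end Vale.Agent.P237.AllN
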