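import Vale.Agent.P237.Full.Min

/-!
# P237: John position of a symmetric body

An ellipsoid of largest determinant inside the body becomes the unit ball, and a perturbation of the
maximiser shows that the contact directions decompose the identity.
-/

namespace Vale.Agent.P237.AllN

open MeasureTheory Set Filter Topology Matrix Vale.Agent.P237.Full
open Vale.Agent.P227.Zono (Body supportVal)

noncomputable section

variable {m : ℕ}

/-- The convex hull of a compact set in finite dimension is compact. -/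
theorem isCompact_hull {E : Type} [NormedAddCommGroup E] [NormedSpace ℝ E] [FiniteDimensional ℝ E]
    {s : Set E} (hs : IsCompact s) : IsCompact (convexHull ℝ s) := by
  classical
  rcases s.eq_empty_or_nonempty with rfl | ⟨z₀, hz₀⟩
  · simp
  set d := Module.finrank ℝ E + 1
  set g : (Fin d → ℝ) × (Fin d → E) → E := fun p => ∑ i, p.1 i • p.2 i
  have himg : convexHull ℝ s = g '' (stdSimplex ℝ (Fin d) ×ˢ univ.pi fun _ => s) := by
    refine Subset.antisymm (fun x hx => ?_) ?_
    · obtain ⟨ι, hfin, z, w, hz, hind, hw, hw1, hwx⟩ := eq_pos_convex_span_of_mem_convexHull hx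
      have hcard : Fintype.card ι ≤ Fintype.card (Fin d) := by
        rw [Fintype.card_fin]
        exact hind.card_le_finrank_succ.trans (Nat.succ_le_succ (Submodule.finrank_le _))
      obtain ⟨e⟩ := Function.Embedding.nonempty_of_card_le hcard
      have hsum : ∀ {M : Type _} [AddCommMonoid M] (F : Fin d → M), (∀ j, j ∉ range e → F j = 0) →
          ∑ j, F j = ∑ i, F (e i) := fun F hF => by
        rw [← Finset.sum_map Finset.univ e F]
        refine (Finset.sum_subset (Finset.subset_univ _) fun j _ hj => hF j ?_).symm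
        rintro ⟨i, rfl⟩
        exact hj (Finset.mem_map_of_mem e (Finset.mem_univ i))
      set w' : Fin d → ℝ := Function.extend e w 0
      set z' : Fin d → E := Function.extend e z fun _ => z₀
      have hw' : ∀ j, j ∉ range e → w' j = 0 := fun j hj =>
        Function.extend_apply' _ _ _ fun h => hj h
      refine ⟨(w', z'), ⟨⟨fun j => ?_, ?_⟩, fun j _ => ?_⟩, ?_⟩
      · by_cases hj : j ∈ range e
        · obtain ⟨i, rfl⟩ := hj
          simp only [w', e.injective.extend_apply]
          exact (hw i).le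
        · exact (hw' j hj).ge
      · rw [hsum w' hw', ← hw1]
        exact Finset.sum_congr rfl fun i _ => e.injective.extend_apply _ _ i
      · by_cases hj : j ∈ range e
        · obtain ⟨i, rfl⟩ := hj
          simp only [z', e.injective.extend_apply]
          exact hz (mem_range_self i)
        · simp only [z']
          rw [Function.extend_apply' _ _ _ fun h => hj h]
          exact hz₀
      · show ∑ j, w' j • z' j = x
        rw [hsum (fun j => w' j • z' j) fun j hj => by rw [hw' j hj, zero_smul], ← hwx]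
        exact Finset.sum_congr rfl fun i _ => by
          simp only [w', z', e.injective.extend_apply]
    · rintro _ ⟨⟨w, z⟩, ⟨hw, hz⟩, rfl⟩
      exact (convex_convexHull ℝ s).sum_mem (fun i _ => hw.1 i) hw.2
        fun i _ => subset_convexHull ℝ s (hz i (mem_univ i))
  rw [himg]
  exact ((isCompact_stdSimplex _ _).prod (isCompact_univ_pi fun _ => hs)).image
    (continuous_finsetSum _ fun i _ => by fun_prop)

theorem dot_le_one {k : ℕ} {a b : Pt k} (ha : a ⬝ᵥ a ≤ 1) (hb : b ⬝ᵥ b ≤ 1) : a ⬝ᵥ b ≤ 1 := by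
  have h := dotProduct_self_eq_zero (v := a - b)
  have h0 : 0 ≤ (a - b) ⬝ᵥ (a - b) :=
    Finset.sum_nonneg fun i _ => mul_self_nonneg _
  simp only [sub_dotProduct, dotProduct_sub, dotProduct_comm b a] at h0
  linarith

theorem dot_self_nonneg {k : ℕ} (a : Pt k) : 0 ≤ a ⬝ᵥ a :=
  Finset.sum_nonneg fun i _ => mul_self_nonneg _

theorem isCompact_sphere {k : ℕ} : IsCompact {u : Pt k | u ⬝ᵥ u = 1} := by
  refine Metric.isCompact_of_isClosed_isBounded (isClosed_eq ?_ continuous_const) ?_
  · exact continuous_finsetSum _ fun i _ => by fun_prop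
  · refine (Metric.isBounded_closedBall (x := (0 : Pt k)) (r := 1)).subset fun u hu => ?_
    rw [mem_closedBall_zero_iff, pi_norm_le_iff_of_nonneg zero_le_one]
    intro i
    have h1 : u i * u i ≤ 1 := by
      rw [← hu]
      exact Finset.single_le_sum (fun j _ => mul_self_nonneg (u j)) (Finset.mem_univ i)
    rw [Real.norm_eq_abs, abs_le]
    constructor <;> nlinarith

/-- A map sends the unit ball into the body when its transpose shrinks every direction enough. -/
theorem ball_maps {K : Set (Pt (m + 1))} (hK : Body K) {N : Matrix (Fin (m + 1)) (Fin (m + 1)) ℝ}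
    (h : ∀ v, v ⬝ᵥ v = 1 → (v ᵥ* N) ⬝ᵥ (v ᵥ* N) ≤ supportVal K v ^ 2) {x : Pt (m + 1)}
    (hx : x ⬝ᵥ x ≤ 1) : N *ᵥ x ∈ K := by
  have key : ∀ u, u ⬝ᵥ (N *ᵥ x) ≤ 1 * supportVal K u := by
    intro u
    rw [one_mul, dotProduct_mulVec]
    rcases eq_or_ne u 0 with rfl | hu
    · simpa using hK.supportVal_nonneg 0
    have hpos : 0 < u ⬝ᵥ u := lt_of_le_of_ne (dot_self_nonneg u)
      fun h0 => hu (dotProduct_self_eq_zero.1 h0.symm)
    set r := √(u ⬝ᵥ u) with hr
    have hr0 : 0 < r := Real.sqrt_pos.2 hpos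
    set v := r⁻¹ • u with hv
    have hv1 : v ⬝ᵥ v = 1 := by
      rw [hv, smul_dotProduct, dotProduct_smul, smul_smul, smul_eq_mul, ← mul_inv,
        Real.mul_self_sqrt hpos.le, inv_mul_cancel₀ hpos.ne']
    have hsupp : supportVal K v = r⁻¹ * supportVal K u := by
      rw [hv, hK.supportVal_smul, abs_of_pos (inv_pos.2 hr0)]
    have hh := hK.supportVal_pos hu
    have hs : 0 < supportVal K v := hsupp ▸ mul_pos (inv_pos.2 hr0) hh
    have hd := dot_le_one (a := (supportVal K v)⁻¹ • (v ᵥ* N)) (by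
      rw [smul_dotProduct, dotProduct_smul, smul_smul, smul_eq_mul, ← mul_inv,
        inv_mul_le_iff₀ (mul_pos hs hs), mul_one, ← sq]
      exact h v hv1) hx
    rw [hsupp, hv, smul_vecMul, smul_smul, smul_dotProduct, smul_eq_mul, mul_inv, inv_inv] at hd
    have e : r * (supportVal K u)⁻¹ * r⁻¹ = (supportVal K u)⁻¹ := by field_simp
    rwa [e, inv_mul_le_iff₀ hh, mul_one] at hd
  have := mem_smul_of_dot_le hK.compact hK.convex ⟨0, interior_subset hK.zero_interior⟩ key
  obtain ⟨y, hy, hy'⟩ := this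
  rw [← hy', show (fun z : Pt (m + 1) => (1 : ℝ) • z) y = y from one_smul ℝ y]
  exact hy

/-- When the ball is an ellipsoid of largest determinant, the contacts decompose the identity. -/
theorem contacts {K : Set (Pt (m + 1))} (hK : Body K) (hball : {x | x ⬝ᵥ x ≤ 1} ⊆ K)
    (hmax : ∀ N : Matrix (Fin (m + 1)) (Fin (m + 1)) ℝ,
      (∀ x, x ⬝ᵥ x ≤ 1 → N *ᵥ x ∈ K) → N.det ≤ 1) :
    ∃ (k : ℕ) (u : Fin k → Pt (m + 1)) (c : Fin k → ℝ),
      (∀ i, 0 < c i ∧ u i ⬝ᵥ u i = 1 ∧ supportVal K (u i) = 1) ∧ ∑ i, c i = (m : ℝ) + 1 ∧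
      ∀ x, ∑ i, (c i * (u i ⬝ᵥ x)) • u i = x := by
  classical
  set C : Set (Pt (m + 1)) := {u | u ⬝ᵥ u = 1 ∧ supportVal K u = 1}
  have hC : IsCompact C :=
    isCompact_sphere.inter_right (isClosed_eq hK.continuous_supportVal continuous_const)
  have hge : ∀ v, v ⬝ᵥ v = 1 → 1 ≤ supportVal K v := fun v hv =>
    hv.symm.le.trans (le_supportVal hK.compact (hball hv.le) v)
  set n : ℝ := (m : ℝ) + 1
  have hn : 0 < n := by positivity
  set A : Pt (m + 1) → (Fin (m + 1) → Fin (m + 1) → ℝ) :=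
    fun u i j => u i * u j - if i = j then n⁻¹ else 0
  have hA : Continuous A := continuous_pi fun i => continuous_pi fun j =>
    ((continuous_apply i).mul (continuous_apply j)).sub continuous_const
  have h0 : (0 : Fin (m + 1) → Fin (m + 1) → ℝ) ∈ convexHull ℝ (A '' C) := by
    by_contra hno
    obtain ⟨f, γ, hγ0, hγ⟩ := geometric_hahn_banach_point_closed (convex_convexHull ℝ (A '' C))
      (isCompact_hull (hC.image hA)).isClosed hno
    rw [map_zero] at hγ0
    set W : Matrix (Fin (m + 1)) (Fin (m + 1)) ℝ :=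
      Matrix.of fun i j => f (Pi.single i (Pi.single j 1))
    have hf : ∀ M, f M = ∑ i, ∑ j, M i j * W i j := by
      intro M
      have e : M = ∑ i, ∑ j, M i j • (Pi.single i (Pi.single j (1 : ℝ)) :
          Fin (m + 1) → Fin (m + 1) → ℝ) := by
        ext a b
        simp [Pi.single_apply, ite_apply]
      conv_lhs => rw [e]
      simp only [map_sum, map_smul, smul_eq_mul]
      rfl
    set H := W - ((W.trace + γ) / n) • (1 : Matrix (Fin (m + 1)) (Fin (m + 1)) ℝ)
    have htr : H.trace = -γ := by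
      simp only [H, Matrix.trace_sub, Matrix.trace_smul, Matrix.trace_one, Fintype.card_fin,
        smul_eq_mul, Nat.cast_add, Nat.cast_one]
      field_simp [n]
      ring
    have hq : ∀ v ∈ C, 0 < (v ᵥ* H) ⬝ᵥ v := by
      intro v hv
      have h1 := hγ (A v) (subset_convexHull ℝ _ (mem_image_of_mem A hv))
      have e : f (A v) = (v ᵥ* W) ⬝ᵥ v - W.trace / n := by
        rw [hf]
        simp only [A, sub_mul, Finset.sum_sub_distrib, ite_mul, zero_mul, Finset.sum_ite_eq,
          Finset.mem_univ, if_true]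
        congr 1
        · simp only [vecMul, dotProduct, Finset.sum_mul]
          rw [Finset.sum_comm]
          exact Finset.sum_congr rfl fun i _ => Finset.sum_congr rfl fun j _ => by ring
        · rw [Matrix.trace, Finset.sum_div]
          exact Finset.sum_congr rfl fun i _ => by rw [Matrix.diag_apply]; ring
      rw [e] at h1
      simp only [H, vecMul_sub, vecMul_smul, vecMul_one, sub_dotProduct, smul_dotProduct, hv.1,
        smul_eq_mul, mul_one]
      rw [add_div]
      have : γ / n ≤ γ := div_le_self hγ0.le (le_add_of_nonneg_left (Nat.cast_nonneg m))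
      linarith
    have hev : ∀ᶠ ε in 𝓝 (0 : ℝ), ∀ v ∈ {u : Pt (m + 1) | u ⬝ᵥ u = 1}, 0 ≤ ε → v ⬝ᵥ v = 1 →
        (v ᵥ* (1 - ε • H)) ⬝ᵥ (v ᵥ* (1 - ε • H)) ≤ supportVal K v ^ 2 := by
      refine isCompact_sphere.eventually_forall_of_forall_eventually fun v hv => ?_
      have hexp : ∀ (ε : ℝ) (w : Pt (m + 1)), w ⬝ᵥ w = 1 →
          (w ᵥ* (1 - ε • H)) ⬝ᵥ (w ᵥ* (1 - ε • H))
            = 1 - ε * (2 * ((w ᵥ* H) ⬝ᵥ w) - ε * ((w ᵥ* H) ⬝ᵥ (w ᵥ* H))) := by
        intro ε w hw
        simp only [vecMul_sub, vecMul_one, vecMul_smul, sub_dotProduct, dotProduct_sub,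
          smul_dotProduct, dotProduct_smul, hw, smul_eq_mul, dotProduct_comm w (w ᵥ* H)]
        ring
      have cH : Continuous fun w : Pt (m + 1) => w ᵥ* H := by fun_prop
      have cq : Continuous fun w : Pt (m + 1) => (w ᵥ* H) ⬝ᵥ w := by fun_prop
      have ch : Continuous fun w : Pt (m + 1) => (w ᵥ* H) ⬝ᵥ (w ᵥ* H) := by fun_prop
      rcases (hge v hv).eq_or_lt with h1 | h1
      · have hcont : Continuous fun z : ℝ × Pt (m + 1) =>
            2 * ((z.2 ᵥ* H) ⬝ᵥ z.2) - z.1 * ((z.2 ᵥ* H) ⬝ᵥ (z.2 ᵥ* H)) :=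
          (continuous_const.mul (cq.comp continuous_snd)).sub
            (continuous_fst.mul (ch.comp continuous_snd))
        filter_upwards [hcont.continuousAt.eventually_mem (Ioi_mem_nhds
          (show (0 : ℝ) < 2 * ((v ᵥ* H) ⬝ᵥ v) - 0 * ((v ᵥ* H) ⬝ᵥ (v ᵥ* H)) by
            linarith [hq v ⟨hv, h1.symm⟩]))] with z hz hz0 hz1
        rw [hexp _ _ hz1]
        have := mul_nonneg hz0 (le_of_lt hz)
        nlinarith [hge _ hz1]
      · have hcont : Continuous fun z : ℝ × Pt (m + 1) => supportVal K z.2 ^ 2 -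
            (1 - z.1 * (2 * ((z.2 ᵥ* H) ⬝ᵥ z.2) - z.1 * ((z.2 ᵥ* H) ⬝ᵥ (z.2 ᵥ* H)))) :=
          ((hK.continuous_supportVal.comp continuous_snd).pow 2).sub
            (continuous_const.sub (continuous_fst.mul
              ((continuous_const.mul (cq.comp continuous_snd)).sub
                (continuous_fst.mul (ch.comp continuous_snd)))))
        filter_upwards [hcont.continuousAt.eventually_mem (Ioi_mem_nhds
          (show (0 : ℝ) < supportVal K v ^ 2 -
            (1 - 0 * (2 * ((v ᵥ* H) ⬝ᵥ v) - 0 * ((v ᵥ* H) ⬝ᵥ (v ᵥ* H)))) by nlinarith))]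
          with z hz hz0 hz1
        rw [hexp _ _ hz1]
        linarith [mem_Ioi.1 hz]
    set R : ℝ → ℝ := fun ε =>
      (det (1 + (Polynomial.X : Polynomial ℝ) • (-H).map Polynomial.C)).divX.divX.eval ε
    have hR : Continuous R := Polynomial.continuous _
    have hdet : ∀ᶠ ε in 𝓝[>] (0 : ℝ), 1 < (1 - ε • H).det := by
      have hc : Continuous fun ε => γ + R ε * ε := by fun_prop
      filter_upwards [(hc.continuousAt.eventually_mem
        (Ioi_mem_nhds (show (0 : ℝ) < γ + R 0 * 0 by linarith))).filter_mono nhdsWithin_le_nhds,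
        self_mem_nhdsWithin] with ε hε hε0
      rw [sub_eq_add_neg, ← smul_neg, det_one_add_smul, Matrix.trace_neg, htr, neg_neg]
      have := mul_pos (mem_Ioi.1 hε) (mem_Ioi.1 hε0)
      simp only [R] at this
      nlinarith
    obtain ⟨ε, ⟨hev', hdet'⟩, hε0⟩ :=
      (((hev.filter_mono nhdsWithin_le_nhds).and hdet).and self_mem_nhdsWithin).exists
    exact absurd (hmax _ fun x hx => ball_maps hK (fun v hv => hev' v hv (le_of_lt hε0) hv) hx)
      (not_le.2 hdet')
  obtain ⟨ι, hι, z, w, hz, -, hw, hw1, hw0⟩ := eq_pos_convex_span_of_mem_convexHull h0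
  choose u hu hAu using fun i => hz (mem_range_self i)
  have hid : ∀ a b, ∑ i, n * w i * (u i a * u i b) = if a = b then (1 : ℝ) else 0 := by
    intro a b
    have h := congrFun (congrFun hw0 a) b
    simp only [← hAu, A, Finset.sum_apply, Pi.smul_apply, smul_eq_mul, Pi.zero_apply, mul_sub,
      Finset.sum_sub_distrib, ← Finset.sum_mul, hw1, one_mul, sub_eq_zero] at h
    simp only [mul_assoc, ← Finset.mul_sum]
    rw [h]
    split_ifs
    · exact mul_inv_cancel₀ hn.ne'
    · exact mul_zero _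
  set e := Fintype.equivFin ι
  refine ⟨Fintype.card ι, fun i => u (e.symm i), fun i => n * w (e.symm i),
    fun i => ⟨mul_pos hn (hw _), (hu _).1, (hu _).2⟩, ?_, fun x => ?_⟩
  · rw [e.symm.sum_comp (fun i => n * w i), ← Finset.mul_sum, hw1, mul_one]
  · rw [e.symm.sum_comp (fun i => (n * w i * (u i ⬝ᵥ x)) • u i)]
    ext a
    simp only [Finset.sum_apply, Pi.smul_apply, smul_eq_mul, dotProduct, Finset.mul_sum,
      Finset.sum_mul]
    rw [Finset.sum_comm]
    calc ∑ b, ∑ i, n * w i * (u i b * x b) * u i a = ∑ b, (if a = b then (1 : ℝ) else 0) * x b := by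
          refine Finset.sum_congr rfl fun b _ => ?_
          rw [← hid a b, Finset.sum_mul]
          exact Finset.sum_congr rfl fun i _ => by ring
      _ = x a := by simp

/-- John position. -/
theorem john {K : Set (Pt (m + 1))} (hK : Body K) :
    ∃ T : Pt (m + 1) ≃ₗ[ℝ] Pt (m + 1), Body (T '' K) ∧ {x | x ⬝ᵥ x ≤ 1} ⊆ T '' K ∧
      ∃ (k : ℕ) (u : Fin k → Pt (m + 1)) (c : Fin k → ℝ),
        (∀ i, 0 < c i ∧ u i ⬝ᵥ u i = 1 ∧ supportVal (T '' K) (u i) = 1) ∧
        ∑ i, c i = (m : ℝ) + 1 ∧ ∀ x, ∑ i, (c i * (u i ⬝ᵥ x)) • u i = x := by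
  classical
  set B : Set (Pt (m + 1)) := {x | x ⬝ᵥ x ≤ 1}
  set S : Set (Fin (m + 1) → Fin (m + 1) → ℝ) := {M | ∀ x ∈ B, Matrix.of M *ᵥ x ∈ K}
  have hclosed : IsClosed S := by
    have e : S = ⋂ x ∈ B, (fun M : Fin (m + 1) → Fin (m + 1) → ℝ => Matrix.of M *ᵥ x) ⁻¹' K := by
      ext M
      simp [S]
    rw [e]
    refine isClosed_biInter fun x _ => hK.compact.isClosed.preimage ?_
    refine continuous_pi fun i => ?_
    show Continuous fun M : Fin (m + 1) → Fin (m + 1) → ℝ => ∑ j, M i j * x j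
    fun_prop
  obtain ⟨R₀, hR0, hR⟩ := hK.compact.isBounded.exists_pos_norm_le
  have hbdd : Bornology.IsBounded S := by
    refine (Metric.isBounded_closedBall (x := (0 : Fin (m + 1) → Fin (m + 1) → ℝ)) (r := R₀)).subset
      fun M hM => ?_
    rw [mem_closedBall_zero_iff, pi_norm_le_iff_of_nonneg hR0.le]
    intro i
    rw [pi_norm_le_iff_of_nonneg hR0.le]
    intro j
    have h := hM (Pi.single j 1) (by simp [B, dotProduct, Pi.single_apply])
    have := (norm_le_pi_norm _ i).trans (hR _ h)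
    rwa [Matrix.mulVec_single_one] at this
  obtain ⟨r, hr, hball⟩ := hK.exists_box
  have hinS : ∀ t : ℝ, |t| ≤ r → (t • (1 : Matrix (Fin (m + 1)) (Fin (m + 1)) ℝ)) ∈ S := by
    intro t ht x hx
    show (t • (1 : Matrix (Fin (m + 1)) (Fin (m + 1)) ℝ)) *ᵥ x ∈ K
    rw [smul_mulVec, one_mulVec]
    refine hball ?_
    rw [mem_closedBall_zero_iff, norm_smul, Real.norm_eq_abs]
    refine le_trans (mul_le_of_le_one_right (abs_nonneg t) ?_) ht
    rw [pi_norm_le_iff_of_nonneg zero_le_one]
    intro i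
    have h1 : x i * x i ≤ 1 :=
      (Finset.single_le_sum (fun j _ => mul_self_nonneg (x j)) (Finset.mem_univ i)).trans hx
    rw [Real.norm_eq_abs, abs_le]
    constructor <;> nlinarith
  obtain ⟨M, hM, hmax⟩ := (Metric.isCompact_of_isClosed_isBounded hclosed hbdd).exists_isMaxOn
    ⟨_, hinS 0 (by simpa using hr.le)⟩
    (f := fun M => |(Matrix.of M).det|) (Continuous.continuousOn
      (Continuous.matrix_det (continuous_id :
        Continuous fun M : Matrix (Fin (m + 1)) (Fin (m + 1)) ℝ => M)).abs)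
  set M' : Matrix (Fin (m + 1)) (Fin (m + 1)) ℝ := Matrix.of M
  have hle : ∀ N : Matrix (Fin (m + 1)) (Fin (m + 1)) ℝ, (∀ x ∈ B, N *ᵥ x ∈ K) →
      |N.det| ≤ |M'.det| := fun N hN => hmax (show (fun i j => N i j) ∈ S from hN)
  have hpos : 0 < |M'.det| := by
    refine lt_of_lt_of_le ?_ (hle (r • 1) (hinS r (abs_of_pos hr).le))
    rw [Matrix.det_smul, Matrix.det_one, mul_one]
    positivity
  set T₀ : Pt (m + 1) ≃ₗ[ℝ] Pt (m + 1) := LinearEquiv.ofInjectiveEndo (Matrix.toLin' M') (by
    intro x y h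
    simp only [Matrix.toLin'_apply] at h
    exact Matrix.mulVec_injective_of_isUnit
      ((Matrix.isUnit_iff_isUnit_det M').2 (abs_pos.1 hpos).isUnit) h)
  have hT : ∀ x, T₀ x = M' *ᵥ x := fun x => Matrix.toLin'_apply M' x
  have hB : Body (T₀.symm '' K) := body_image T₀.symm hK
  have hsub : B ⊆ T₀.symm '' K := fun x hx =>
    ⟨M' *ᵥ x, hM x hx, by rw [← hT, LinearEquiv.symm_apply_apply]⟩
  refine ⟨T₀.symm, hB, hsub, contacts hB hsub fun N hN => ?_⟩
  have h := hle (M' * N) fun x hx => by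
    obtain ⟨y, hy, hyx⟩ := hN x hx
    rw [← Matrix.mulVec_mulVec, ← hyx, ← hT, LinearEquiv.apply_symm_apply]
    exact hy
  rw [Matrix.det_mul, abs_mul] at h
  exact (le_abs_self _).trans ((mul_le_iff_le_one_right hpos).1 h)

end

end Vale.Agent.P237.AllN
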