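import Vale.Agent.P237.AllN.BL
import Vale.Agent.P237.Full.Slices

/-!
# P237: the Gaussian lift of a symmetric body and the entropy of its marginals

The density proportional to `exp (-gauge K ^ 2 / 2)` has marginals computed from the slices, and by
the geometric Brascamp–Lieb inequality its entropy is at most the weighted sum of their entropies.
-/

namespace Vale.Agent.P237.AllN

open MeasureTheory Set Filter Topology Function
open scoped ENNReal Pointwise
open Vale.Agent.P237.Full

noncomputable section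

variable {k : ℕ}

/-- The marginal of the Gaussian lift, before normalisation, from the slice areas. -/
def lift (k : ℕ) (S : ℝ → ℝ) (s : ℝ) : ℝ :=
  ∫ l in Ioi (0 : ℝ), l ^ (k + 2) * Real.exp (-l ^ 2 / 2) * S (s / l)

/-- The total mass of the Gaussian lift of a body of volume `V`. -/
def gaussZ (n : ℕ) (V : ℝ) : ℝ := V * (2 : ℝ) ^ ((n : ℝ) / 2) * Real.Gamma ((n : ℝ) / 2 + 1)

/-- The normalised marginal. -/
def marginal (k : ℕ) (S : ℝ → ℝ) (V s : ℝ) : ℝ := lift k S s / gaussZ (k + 2) V

/-- The entropy of a density on the line. -/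
def ent (p : ℝ → ℝ) : ℝ := ∫ s, Real.negMulLog (p s)

theorem gaussZ_pos (n : ℕ) {V : ℝ} (hV : 0 < V) : 0 < gaussZ n V :=
  mul_pos (mul_pos hV (Real.rpow_pos_of_pos two_pos _)) (Real.Gamma_pos_of_pos (by positivity))

theorem integrableOn_moment_exp (j : ℕ) {b : ℝ} (hb : 0 < b) :
    IntegrableOn (fun l : ℝ => l ^ j * Real.exp (-b * l ^ 2)) (Ioi 0) := by
  have h := integrableOn_rpow_mul_exp_neg_mul_sq hb (s := (j : ℝ))
    (by linarith [(j.cast_nonneg : (0 : ℝ) ≤ j)])
  exact h.congr_fun (fun l _ => by simp only [Real.rpow_natCast]) measurableSet_Ioi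

theorem lintegral_moment_exp (n : ℕ) :
    ∫⁻ l in Ioi (0 : ℝ), ENNReal.ofReal (l ^ (n + 1) * Real.exp (-l ^ 2 / 2))
      = ENNReal.ofReal (gaussZ n 1) := by
  have e : ∀ l : ℝ, l ^ (n + 1) * Real.exp (-l ^ 2 / 2)
      = l ^ (n + 1) * Real.exp (-(1 / 2 : ℝ) * l ^ 2) := fun l => by ring_nf
  simp only [e]
  rw [← ofReal_integral_eq_lintegral_ofReal (integrableOn_moment_exp (n + 1) (by norm_num))
    (by filter_upwards [ae_restrict_mem measurableSet_Ioi] with l (hl : 0 < l); positivity)]
  have h := integral_rpow_mul_exp_neg_mul_rpow (p := 2) (q := ((n + 1 : ℕ) : ℝ)) (b := 1 / 2)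
    two_pos (by linarith [((n + 1).cast_nonneg : (0 : ℝ) ≤ _)]) (by norm_num)
  simp only [Real.rpow_natCast, Real.rpow_two] at h
  rw [h, gaussZ]
  congr 1
  have e2 : (((n + 1 : ℕ) : ℝ) + 1) / 2 = (n : ℝ) / 2 + 1 := by push_cast; ring
  rw [neg_div, e2, show (1 / 2 : ℝ) = (2 : ℝ)⁻¹ by norm_num, Real.inv_rpow two_pos.le,
    ← Real.rpow_neg two_pos.le, neg_neg, Real.rpow_add two_pos, Real.rpow_one]
  ring

section Slices

variable {A : Set (Pt (k + 1) × ℝ)}

theorem sliceVol_bound (hA : Solid A) :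
    ∃ C : ℝ, ∀ z, 0 ≤ sliceVol A z ∧ sliceVol A z ≤ C := by
  refine ⟨(volume (Prod.fst '' A)).toReal, fun z => ⟨ENNReal.toReal_nonneg, ?_⟩⟩
  exact ENNReal.toReal_mono (hA.compact.image continuous_fst).measure_lt_top.ne
    (measure_mono fun x hx => ⟨(x, z), hx, rfl⟩)

theorem lift_integrand (hA : Solid A) (s : ℝ) :
    IntegrableOn (fun l => l ^ (k + 2) * Real.exp (-l ^ 2 / 2) * sliceVol A (s / l)) (Ioi 0) := by
  obtain ⟨C, hC⟩ := sliceVol_bound hA
  refine Integrable.mono' ((integrableOn_moment_exp (k + 2) (b := 1 / 2) (by norm_num)).mul_const C)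
    ((by fun_prop : Measurable fun l : ℝ => l ^ (k + 2) * Real.exp (-l ^ 2 / 2)).mul
      (hA.measurable_sliceVol.comp (measurable_const.div measurable_id))).aestronglyMeasurable ?_
  filter_upwards [ae_restrict_mem measurableSet_Ioi] with l (hl : 0 < l)
  rw [Real.norm_eq_abs, abs_of_nonneg (mul_nonneg (by positivity) (hC _).1),
    show -l ^ 2 / 2 = -(1 / 2 : ℝ) * l ^ 2 by ring]
  exact mul_le_mul_of_nonneg_left (hC _).2 (by positivity)

theorem continuous_lift (hA : Solid A) : Continuous (lift k (sliceVol A)) := by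
  obtain ⟨C, hC⟩ := sliceVol_bound hA
  obtain ⟨hlo, hhi⟩ := hA.lo_neg
  refine continuous_iff_continuousAt.2 fun s => continuousAt_of_dominated
    (bound := fun l => l ^ (k + 2) * Real.exp (-l ^ 2 / 2) * C)
    (Eventually.of_forall fun s => (lift_integrand hA s).aestronglyMeasurable) ?_ ?_ ?_
  · refine Eventually.of_forall fun s => ?_
    filter_upwards [ae_restrict_mem measurableSet_Ioi] with l (hl : 0 < l)
    rw [Real.norm_eq_abs, abs_of_nonneg (mul_nonneg (by positivity) (hC _).1)]
    exact mul_le_mul_of_nonneg_left (hC _).2 (by positivity)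
  · refine ((integrableOn_moment_exp (k + 2) (b := 1 / 2) (by norm_num)).congr_fun
      (fun l _ => ?_) measurableSet_Ioi).mul_const C
    ring_nf
  · filter_upwards [ae_restrict_mem measurableSet_Ioi,
      ae_restrict_of_ae (Measure.ae_ne volume (s / lo A)),
      ae_restrict_of_ae (Measure.ae_ne volume (s / hi A))] with l (hl : 0 < l) h1 h2
    have hz1 : s / l ≠ lo A := fun h => h1 (by
      rw [eq_div_iff hlo.ne, ← h, mul_div_cancel₀ _ hl.ne'])
    have hz2 : s / l ≠ hi A := fun h => h2 (by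
      rw [eq_div_iff hhi.ne', ← h, mul_div_cancel₀ _ hl.ne'])
    have hS : ContinuousAt (sliceVol A) (s / l) := by
      by_cases hin : s / l ∈ Ioo (lo A) (hi A)
      · exact hA.continuousAt_sliceVol hin
      · have hout : s / l ∉ Icc (lo A) (hi A) := fun h =>
          hin ⟨lt_of_le_of_ne h.1 (Ne.symm hz1), lt_of_le_of_ne h.2 hz2⟩
        refine continuousAt_const.congr (f := fun _ => (0 : ℝ)) ?_
        filter_upwards [isClosed_Icc.isOpen_compl.mem_nhds hout] with z hz
        exact (hA.sliceVol_eq_zero hz).symm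
    exact (ContinuousAt.comp (f := fun x : ℝ => x / l) hS
      (continuousAt_id.div_const l)).const_mul _

theorem lift_nonneg (_hA : Solid A) (s : ℝ) : 0 ≤ lift k (sliceVol A) s :=
  setIntegral_nonneg measurableSet_Ioi fun l (hl : 0 < l) =>
    mul_nonneg (by positivity) ENNReal.toReal_nonneg

theorem lift_pos (hA : Solid A) (s : ℝ) : 0 < lift k (sliceVol A) s := by
  obtain ⟨hlo, hhi⟩ := hA.lo_neg
  set δ := min (-lo A) (hi A)
  have hδ : 0 < δ := lt_min (neg_pos.2 hlo) hhi
  rw [lift, setIntegral_pos_iff_support_of_nonneg_ae (by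
    filter_upwards [ae_restrict_mem measurableSet_Ioi] with l (hl : 0 < l)
    exact mul_nonneg (by positivity) ENNReal.toReal_nonneg) (lift_integrand hA s)]
  refine lt_of_lt_of_le ?_ (measure_mono (?_ : Ioi (|s| / δ) ⊆ _))
  · simp
  intro l (hl : |s| / δ < l)
  have hl0 : 0 < l := lt_of_le_of_lt (by positivity) hl
  refine ⟨?_, hl0⟩
  have hlt : |s / l| < δ := by
    rw [abs_div, abs_of_pos hl0, div_lt_iff₀ hl0]
    rw [div_lt_iff₀ hδ] at hl
    linarith
  have hz : s / l ∈ Ioo (lo A) (hi A) := by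
    obtain ⟨a, b⟩ := abs_lt.1 hlt
    exact ⟨by linarith [min_le_left (-lo A) (hi A)], lt_of_lt_of_le b (min_le_right _ _)⟩
  exact (mul_pos (by positivity) (hA.slice_pos hz)).ne'

/-- The marginal has Gaussian decay. -/
theorem lift_le (hA : Solid A) : ∃ C a : ℝ, 0 ≤ C ∧ 0 < a ∧
    ∀ s, lift k (sliceVol A) s ≤ C * Real.exp (-a * s ^ 2) := by
  obtain ⟨C, hC⟩ := sliceVol_bound hA
  obtain ⟨hlo, hhi⟩ := hA.lo_neg
  set H := hi A - lo A
  have hH : 0 < H := by simp only [H]; linarith
  have hC0 : 0 ≤ C := (hC 0).1.trans (hC 0).2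
  refine ⟨(∫ l in Ioi (0 : ℝ), l ^ (k + 2) * Real.exp (-(1 / 4 : ℝ) * l ^ 2)) * C,
    1 / (4 * H ^ 2), mul_nonneg (setIntegral_nonneg measurableSet_Ioi fun l (hl : 0 < l) => by positivity) hC0,
    by positivity, fun s => ?_⟩
  rw [lift, ← integral_mul_const, ← integral_mul_const]
  refine setIntegral_mono_on (lift_integrand hA s)
    (((integrableOn_moment_exp (k + 2) (by norm_num)).mul_const C).mul_const _) measurableSet_Ioi
    fun l (hl : 0 < l) => ?_
  by_cases hz : s / l ∈ Icc (lo A) (hi A)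
  · have habs : |s| ≤ H * l := by
      have : |s / l| ≤ H := abs_le.2 ⟨by simp only [H]; linarith [hz.1], by simp only [H]; linarith [hz.2]⟩
      rwa [abs_div, abs_of_pos hl, div_le_iff₀ hl] at this
    have hsq : 1 / (4 * H ^ 2) * s ^ 2 ≤ 1 / 4 * l ^ 2 := by
      have := mul_self_le_mul_self (abs_nonneg s) habs
      rw [abs_mul_abs_self] at this
      rw [div_mul_eq_mul_div, div_le_iff₀ (by positivity)]
      nlinarith
    have hexp : Real.exp (-l ^ 2 / 2)
        ≤ Real.exp (-(1 / 4 : ℝ) * l ^ 2) * Real.exp (-(1 / (4 * H ^ 2)) * s ^ 2) := by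
      rw [← Real.exp_add]
      exact Real.exp_le_exp.2 (by linarith)
    calc l ^ (k + 2) * Real.exp (-l ^ 2 / 2) * sliceVol A (s / l)
        ≤ l ^ (k + 2) * (Real.exp (-(1 / 4 : ℝ) * l ^ 2) * Real.exp (-(1 / (4 * H ^ 2)) * s ^ 2)) * C :=
          mul_le_mul (mul_le_mul_of_nonneg_left hexp (by positivity)) (hC _).2 (hC _).1
            (by positivity)
      _ = _ := by ring
  · rw [hA.sliceVol_eq_zero hz, mul_zero]
    positivity

theorem measurePreserving_solid {K : Set (Pt (k + 2))} (hK : P227.Zono.Body K)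
    (T : (Pt (k + 1) × ℝ) ≃ₗ[ℝ] Pt (k + 2)) : Solid (T.symm '' K) where
  compact := hK.compact.image T.symm.toLinearMap.continuous_of_finiteDimensional
  convex := hK.convex.linear_image T.symm.toLinearMap
  nhds := by
    have h := T.symm.toContinuousLinearEquiv.toHomeomorph.isOpenMap.image_mem_nhds hK.nhds
    simpa using h

end Slices

variable {K : Set (Pt (k + 2))}

/-- The density of the Gaussian lift. -/
def liftDens (K : Set (Pt (k + 2))) (y : Pt (k + 2)) : ℝ := Real.exp (-gauge K y ^ 2 / 2)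

theorem continuous_liftDens (hK : P227.Zono.Body K) : Continuous (liftDens K) := by
  have := continuous_gauge hK.convex hK.nhds
  unfold liftDens
  fun_prop

theorem gauge_le_eq_smul (hK : P227.Zono.Body K) {l : ℝ} (hl : 0 < l) :
    {y | gauge K y ≤ l} = l • K := by
  ext y
  rw [mem_smul_set_iff_inv_smul_mem₀ hl.ne', ← hK.gauge_le_one,
    hK.gauge_smul (inv_nonneg.2 hl.le), inv_mul_le_iff₀ hl, mul_one]
  rfl

/-- Layers: a radial weight against any function. -/
theorem lintegral_layers (hK : P227.Zono.Body K) {w : ℝ → ℝ≥0∞} (hw : Measurable w)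
    {Φ : Pt (k + 2) → ℝ≥0∞} (hΦ : Measurable Φ) :
    ∫⁻ y, Φ y * ∫⁻ l in Ioi (gauge K y), w l
      = ∫⁻ l in Ioi (0 : ℝ), w l * ∫⁻ y in l • K, Φ y := by
  have hg : Measurable fun y : Pt (k + 2) => gauge K y :=
    (continuous_gauge hK.convex hK.nhds).measurable
  set D : Set (Pt (k + 2) × ℝ) := {p | gauge K p.1 ≤ p.2}
  have hD : MeasurableSet D := measurableSet_le (hg.comp measurable_fst) measurable_snd
  calc ∫⁻ y, Φ y * ∫⁻ l in Ioi (gauge K y), w l
      = ∫⁻ y, ∫⁻ l in Ioi (0 : ℝ), D.indicator (fun p => Φ p.1 * w p.2) (y, l) := by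
        refine lintegral_congr fun y => ?_
        rw [← lintegral_const_mul _ hw, ← lintegral_indicator measurableSet_Ioi,
          ← lintegral_indicator measurableSet_Ioi]
        refine lintegral_congr_ae ?_
        filter_upwards [Measure.ae_ne volume (gauge K y)] with l hl
        have h0 := gauge_nonneg (s := K) y
        by_cases h : gauge K y < l
        · rw [indicator_of_mem (show l ∈ Ioi (gauge K y) from h),
            indicator_of_mem (show l ∈ Ioi (0 : ℝ) from h0.trans_lt h),
            indicator_of_mem (show (y, l) ∈ D from h.le)]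
        · rw [indicator_of_notMem (show l ∉ Ioi (gauge K y) from h)]
          refine (indicator_apply_eq_zero.2 fun _ => indicator_of_notMem ?_ _).symm
          exact fun h' : gauge K y ≤ l => h (lt_of_le_of_ne h' (Ne.symm hl))
    _ = ∫⁻ l in Ioi (0 : ℝ), ∫⁻ y, D.indicator (fun p => Φ p.1 * w p.2) (y, l) :=
        lintegral_lintegral_swap (((hΦ.comp measurable_fst).mul (hw.comp measurable_snd)).indicator hD).aemeasurable
    _ = _ := by
        refine setLIntegral_congr_fun measurableSet_Ioi fun l (hl : 0 < l) => ?_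
        have hms : MeasurableSet (l • K) := (hK.compact.smul l).isClosed.measurableSet
        rw [← lintegral_const_mul _ hΦ, ← lintegral_indicator hms]
        refine lintegral_congr fun y => ?_
        have hiff : (y, l) ∈ D ↔ y ∈ l • K := by
          rw [← gauge_le_eq_smul hK hl]; exact Iff.rfl
        by_cases hy : y ∈ l • K
        · rw [indicator_of_mem hy, indicator_of_mem (hiff.2 hy), mul_comm]
        · rw [indicator_of_notMem hy, indicator_of_notMem (hy ∘ hiff.1)]

theorem lintegral_tail_exp {g : ℝ} (hg : 0 ≤ g) :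
    ∫⁻ l in Ioi g, ENNReal.ofReal (l * Real.exp (-l ^ 2 / 2))
        = ENNReal.ofReal (Real.exp (-g ^ 2 / 2)) ∧
      ∫⁻ l in Ioi g, ENNReal.ofReal (l ^ 3 * Real.exp (-l ^ 2 / 2))
        = ENNReal.ofReal ((g ^ 2 + 2) * Real.exp (-g ^ 2 / 2)) := by
  have hE : ∀ x : ℝ, HasDerivAt (fun x : ℝ => Real.exp (-x ^ 2 / 2))
      (Real.exp (-x ^ 2 / 2) * (-x)) x := fun x => by
    have h := (((hasDerivAt_pow 2 x).neg.div_const 2).exp)
    refine h.congr_deriv ?_
    simp
    ring
  have h1 : ∀ x : ℝ, HasDerivAt (fun x : ℝ => -Real.exp (-x ^ 2 / 2))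
      (x * Real.exp (-x ^ 2 / 2)) x := fun x => by
    exact (hE x).neg.congr_deriv (by ring)
  have h3 : ∀ x : ℝ, HasDerivAt (fun x : ℝ => -((x ^ 2 + 2) * Real.exp (-x ^ 2 / 2)))
      (x ^ 3 * Real.exp (-x ^ 2 / 2)) x := fun x => by
    refine (((hasDerivAt_pow 2 x).add_const 2).mul (hE x)).neg.congr_deriv ?_
    simp
    ring
  have hsub : Ioi g ⊆ Ioi (0 : ℝ) := Ioi_subset_Ioi hg
  have hint : ∀ j : ℕ, IntegrableOn (fun l : ℝ => l ^ j * Real.exp (-l ^ 2 / 2)) (Ioi g) :=
    fun j => (((integrableOn_moment_exp j (b := 1 / 2) (by norm_num)).congr_fun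
      (fun l _ => by ring_nf) measurableSet_Ioi)).mono_set hsub
  have hneg : ∀ᵐ l ∂(volume.restrict (Ioi g)), (0 : ℝ) < l := by
    filter_upwards [ae_restrict_mem measurableSet_Ioi] with l (hl : g < l)
    linarith
  have hlim0 : Tendsto (fun x : ℝ => Real.exp (-x ^ 2 / 2)) atTop (𝓝 0) :=
    Real.tendsto_exp_atBot.comp ((tendsto_neg_atTop_atBot.comp
      (tendsto_pow_atTop two_ne_zero)).atBot_div_const two_pos)
  have hlim2 : Tendsto (fun x : ℝ => x ^ 2 * Real.exp (-x ^ 2 / 2)) atTop (𝓝 0) := by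
    have h := ((Real.tendsto_pow_mul_exp_neg_atTop_nhds_zero 1).comp
      ((tendsto_pow_atTop (α := ℝ) two_ne_zero).atTop_div_const two_pos)).const_mul 2
    rw [mul_zero] at h
    exact h.congr fun x => by simp only [Function.comp_apply, pow_one, neg_div]; ring
  have hint1 : IntegrableOn (fun l : ℝ => l * Real.exp (-l ^ 2 / 2)) (Ioi g) :=
    (hint 1).congr_fun (fun l _ => by simp) measurableSet_Ioi
  constructor
  · rw [← ofReal_integral_eq_lintegral_ofReal hint1
      (by filter_upwards [hneg] with l hl; positivity)]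
    rw [integral_Ioi_of_hasDerivAt_of_tendsto' (fun x _ => h1 x) hint1
      (by simpa using hlim0.neg)]
    simp
  · rw [← ofReal_integral_eq_lintegral_ofReal (hint 3)
      (by filter_upwards [hneg] with l hl; positivity)]
    rw [integral_Ioi_of_hasDerivAt_of_tendsto' (fun x _ => h3 x) (hint 3) (m := 0) (by
      have := (hlim2.add (hlim0.const_mul 2)).neg
      simp only [mul_zero, add_zero, neg_zero] at this
      exact this.congr fun x => by ring)]
    simp

theorem volume_smul_body (hK : P227.Zono.Body K) {l : ℝ} (hl : 0 ≤ l) :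
    volume (l • K) = ENNReal.ofReal (l ^ (k + 2)) * ENNReal.ofReal (volume K).toReal := by
  rw [Measure.addHaar_smul, Module.finrank_fin_fun, abs_of_nonneg (pow_nonneg hl _),
    ENNReal.ofReal_toReal hK.compact.measure_lt_top.ne]

theorem lintegral_weighted (hK : P227.Zono.Body K) (j : ℕ) :
    ∫⁻ y : Pt (k + 2), ∫⁻ l in Ioi (gauge K y), ENNReal.ofReal (l ^ (j + 1) * Real.exp (-l ^ 2 / 2))
      = ENNReal.ofReal (gaussZ (k + 2 + j) (volume K).toReal) := by
  have h := lintegral_layers hK (w := fun l => ENNReal.ofReal (l ^ (j + 1) * Real.exp (-l ^ 2 / 2)))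
    (by fun_prop) (Φ := fun _ => 1) measurable_const
  simp only [one_mul, setLIntegral_one] at h
  rw [h]

  have : ∀ l ∈ Ioi (0 : ℝ), ENNReal.ofReal (l ^ (j + 1) * Real.exp (-l ^ 2 / 2)) * volume (l • K)
      = ENNReal.ofReal (l ^ (k + 2 + j + 1) * Real.exp (-l ^ 2 / 2)) * ENNReal.ofReal (volume K).toReal := by
    intro l (hl : 0 < l)
    rw [volume_smul_body hK hl.le, ← mul_assoc, ← ENNReal.ofReal_mul (by positivity)]
    ring_nf
  rw [setLIntegral_congr_fun measurableSet_Ioi this, lintegral_mul_const _ (by fun_prop),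
    lintegral_moment_exp, ← ENNReal.ofReal_mul' ENNReal.toReal_nonneg, gaussZ, gaussZ]
  ring_nf

theorem lintegral_liftDens (hK : P227.Zono.Body K) :
    ∫⁻ y, ENNReal.ofReal (liftDens K y) = ENNReal.ofReal (gaussZ (k + 2) (volume K).toReal) := by
  refine Eq.trans ?_ (lintegral_weighted hK 0)
  exact lintegral_congr fun y => by
    simp only [zero_add, pow_one]; exact ((lintegral_tail_exp (gauge_nonneg y)).1).symm

theorem integrable_liftDens (hK : P227.Zono.Body K) : Integrable (liftDens K) := by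
  refine ⟨(continuous_liftDens hK).aestronglyMeasurable, ?_⟩
  rw [hasFiniteIntegral_iff_ofReal (Eventually.of_forall fun y => (Real.exp_pos _).le : ∀ᵐ y, 0 ≤ liftDens K y),
    lintegral_liftDens hK]
  exact ENNReal.ofReal_lt_top

theorem integral_liftDens (hK : P227.Zono.Body K) :
    ∫ y, liftDens K y = gaussZ (k + 2) (volume K).toReal := by
  rw [integral_eq_lintegral_of_nonneg_ae (Eventually.of_forall fun y => (Real.exp_pos _).le : ∀ᵐ y, 0 ≤ liftDens K y)
    (continuous_liftDens hK).aestronglyMeasurable, lintegral_liftDens hK,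
    ENNReal.toReal_ofReal (gaussZ_pos _ (Cvx.of_body hK).volume_pos).le]

/-- The second moment of the lift. -/
theorem second_moment (hK : P227.Zono.Body K) :
    Integrable (fun y => gauge K y ^ 2 * liftDens K y) ∧
      ∫ y, gauge K y ^ 2 * liftDens K y
        = ((k + 2 : ℕ) : ℝ) * gaussZ (k + 2) (volume K).toReal := by
  set V := (volume K).toReal
  have hV := (Cvx.of_body hK).volume_pos
  have hcont : Continuous fun y => (gauge K y ^ 2 + 2) * liftDens K y :=
    (((continuous_gauge hK.convex hK.nhds).pow 2).add continuous_const).mul (continuous_liftDens hK)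
  have hnn : ∀ y, 0 ≤ (gauge K y ^ 2 + 2) * liftDens K y := fun y =>
    mul_nonneg (by positivity) (Real.exp_pos _).le
  have hl : ∫⁻ y, ENNReal.ofReal ((gauge K y ^ 2 + 2) * liftDens K y)
      = ENNReal.ofReal (gaussZ (k + 2 + 2) V) := by
    rw [← lintegral_weighted hK 2]
    exact lintegral_congr fun y => ((lintegral_tail_exp (gauge_nonneg y)).2).symm
  have hi : Integrable fun y => (gauge K y ^ 2 + 2) * liftDens K y := by
    refine ⟨hcont.aestronglyMeasurable, ?_⟩
    rw [hasFiniteIntegral_iff_ofReal (Eventually.of_forall hnn), hl]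
    exact ENNReal.ofReal_lt_top
  have hval : ∫ y, (gauge K y ^ 2 + 2) * liftDens K y = gaussZ (k + 2 + 2) V := by
    rw [integral_eq_lintegral_of_nonneg_ae (Eventually.of_forall hnn) hcont.aestronglyMeasurable, hl,
      ENNReal.toReal_ofReal (gaussZ_pos _ hV).le]
  have e : (fun y => gauge K y ^ 2 * liftDens K y)
      = fun y => (gauge K y ^ 2 + 2) * liftDens K y - 2 * liftDens K y := by funext y; ring
  refine ⟨e ▸ hi.sub ((integrable_liftDens hK).const_mul 2), ?_⟩
  rw [e, integral_sub hi ((integrable_liftDens hK).const_mul 2), hval, integral_const_mul,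
    integral_liftDens hK, gaussZ, gaussZ]
  have e2 : (((k + 2 + 2 : ℕ) : ℝ)) / 2 = ((k + 2 : ℕ) : ℝ) / 2 + 1 := by push_cast; ring
  rw [e2, Real.rpow_add two_pos, Real.rpow_one,
    Real.Gamma_add_one (s := ((k + 2 : ℕ) : ℝ) / 2 + 1) (by positivity)]
  ring

variable {u : Pt (k + 2)} {T : (Pt (k + 1) × ℝ) ≃ₗ[ℝ] Pt (k + 2)}

/-- The law of `u ⬝ y` under the lift has density `lift`. -/
theorem lintegral_marginal (hK : P227.Zono.Body K) (hT : MeasurePreserving T volume volume)
    (hu : ∀ p, u ⬝ᵥ T p = p.2) {φ : ℝ → ℝ≥0∞} (hφ : Measurable φ) :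
    ∫⁻ y, ENNReal.ofReal (liftDens K y) * φ (u ⬝ᵥ y)
      = ∫⁻ s, ENNReal.ofReal (lift k (sliceVol (T.symm '' K)) s) * φ s := by
  set A := T.symm '' K with hAdef
  have hA : Solid A := measurePreserving_solid hK T
  set S := sliceVol A
  have hdot : Measurable fun y : Pt (k + 2) => φ (u ⬝ᵥ y) :=
    hφ.comp (Full.continuous_dot u).measurable
  have h1 : ∫⁻ y, ENNReal.ofReal (liftDens K y) * φ (u ⬝ᵥ y)
      = ∫⁻ l in Ioi (0 : ℝ), ENNReal.ofReal (l * Real.exp (-l ^ 2 / 2)) * ∫⁻ y in l • K, φ (u ⬝ᵥ y) := by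
    rw [← lintegral_layers hK (by fun_prop) hdot]
    refine lintegral_congr fun y => ?_
    rw [(lintegral_tail_exp (gauge_nonneg y)).1, mul_comm]
    rfl
  have h2 : ∀ l ∈ Ioi (0 : ℝ), ∫⁻ y in l • K, φ (u ⬝ᵥ y)
      = ∫⁻ s, ENNReal.ofReal (l ^ (k + 1) * S (s / l)) * φ s := by
    intro l (hl : 0 < l)
    have hms : MeasurableSet (l • K) := (hK.compact.smul l).isClosed.measurableSet
    rw [← hT.setLIntegral_comp_preimage hms hdot]
    simp only [hu]
    have hpre : MeasurableSet (T ⁻¹' (l • K)) :=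
      hT.measurable hms
    rw [← lintegral_indicator hpre, Measure.volume_eq_prod,
      lintegral_prod_symm _ (by exact ((hφ.comp measurable_snd).indicator hpre).aemeasurable)]
    refine lintegral_congr fun s => ?_
    have hsl : ∀ x, (x, s) ∈ T ⁻¹' (l • K) ↔ x ∈ l • slice A (s / l) := by
      intro x
      rw [mem_preimage, mem_smul_set_iff_inv_smul_mem₀ hl.ne',
        mem_smul_set_iff_inv_smul_mem₀ hl.ne']
      show _ ↔ (l⁻¹ • x, s / l) ∈ A
      rw [hAdef, show (l⁻¹ • x, s / l) = l⁻¹ • (x, s) by simp [Prod.smul_mk, div_eq_inv_mul],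
        LinearEquiv.image_symm_eq_preimage, mem_preimage, map_smul]
    have hset : (fun x : Pt (k + 1) => (x, s)) ⁻¹' (T ⁻¹' (l • K)) = l • slice A (s / l) :=
      Set.ext hsl
    have e : ∀ x, (T ⁻¹' (l • K)).indicator (fun p : Pt (k + 1) × ℝ => φ p.2) (x, s)
        = (l • slice A (s / l)).indicator (fun _ => φ s) x := by
      intro x
      by_cases hx : x ∈ l • slice A (s / l)
      · rw [indicator_of_mem hx, indicator_of_mem ((hsl x).2 hx)]
      · rw [indicator_of_notMem hx, indicator_of_notMem (hx ∘ (hsl x).1)]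
    rw [lintegral_congr e, lintegral_indicator ((hA.isCompact_slice _).smul l).isClosed.measurableSet,
      setLIntegral_const, Measure.addHaar_smul, Module.finrank_fin_fun,
      abs_of_nonneg (by positivity), ENNReal.ofReal_mul (by positivity), mul_comm]
    simp only [S, sliceVol, ENNReal.ofReal_toReal (hA.isCompact_slice _).measure_lt_top.ne]
  have hS : Measurable S := hA.measurable_sliceVol
  have hmeas : Measurable (uncurry fun (l s : ℝ) =>
      ENNReal.ofReal (l * Real.exp (-l ^ 2 / 2)) * (ENNReal.ofReal (l ^ (k + 1) * S (s / l)) * φ s)) := by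
    refine Measurable.mul ?_ (Measurable.mul ?_ (hφ.comp measurable_snd))
    · fun_prop
    · exact ENNReal.measurable_ofReal.comp ((measurable_fst.pow_const _).mul
        (hS.comp (measurable_snd.div measurable_fst)))
  have h3 : ∀ l ∈ Ioi (0 : ℝ),
      ENNReal.ofReal (l * Real.exp (-l ^ 2 / 2)) * ∫⁻ y in l • K, φ (u ⬝ᵥ y)
        = ∫⁻ s, ENNReal.ofReal (l * Real.exp (-l ^ 2 / 2))
            * (ENNReal.ofReal (l ^ (k + 1) * S (s / l)) * φ s) := fun l hl => by
    have hm : Measurable fun s => ENNReal.ofReal (l ^ (k + 1) * S (s / l)) * φ s :=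
      ((hS.comp (measurable_id.div_const l)).const_mul _).ennreal_ofReal.mul hφ
    rw [h2 l hl, lintegral_const_mul _ hm]
  rw [h1, setLIntegral_congr_fun measurableSet_Ioi h3]
  rw [lintegral_lintegral_swap hmeas.aemeasurable]
  refine lintegral_congr fun s => ?_
  rw [lift, ofReal_integral_eq_lintegral_ofReal (lift_integrand hA s)
    (by filter_upwards [ae_restrict_mem measurableSet_Ioi] with l (hl : 0 < l)
        exact mul_nonneg (by positivity) ENNReal.toReal_nonneg),
    ← lintegral_mul_const'' _ ((lift_integrand hA s).aemeasurable.ennreal_ofReal)]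
  refine setLIntegral_congr_fun measurableSet_Ioi fun l (hl : 0 < l) => ?_
  rw [← mul_assoc, ← ENNReal.ofReal_mul (by positivity)]
  simp only [S]
  ring_nf

end

end Vale.Agent.P237.AllN
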