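import Vale.Agent.P237.AllN.Slice
import Vale.Agent.P237.AllN.Ball
import Vale.Agent.P237.AllN.Bound

/-!
# P237 in all dimensions: the profile of a body across a contact direction
-/

namespace Vale.Agent.P237.AllN

open MeasureTheory Set Function Topology Filter
open scoped ENNReal NNReal Pointwise
open Full (Cvx Solid lo hi sliceVol rad ratio)

variable {k : ℕ}

/-- A reflection carrying `u` to the last axis. -/
theorem exists_reflection {u : Pt (k + 2)} (hu : u ⬝ᵥ u = 1) :
    ∃ R : Pt (k + 2) ≃ₗ[ℝ] Pt (k + 2), MeasurePreserving R volume volume ∧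
      (∀ x, R (R x) = x) ∧ (∀ x y, R x ⬝ᵥ y = x ⬝ᵥ R y) ∧ R u = lastAxis (k + 1) := by
  set e : Pt (k + 2) := lastAxis (k + 1)
  set w : Pt (k + 2) := e - u
  refine ⟨LinearEquiv.ofInvolutive (mirror w) (mirror_mirror w), ?_, mirror_mirror w,
    fun x y => mirror_dot w x y, ?_⟩
  · have hdet : LinearMap.det (mirror w) * LinearMap.det (mirror w) = 1 := by
      rw [← LinearMap.det_comp, show (mirror w).comp (mirror w) = LinearMap.id from
        LinearMap.ext (mirror_mirror w), LinearMap.det_id]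
    show MeasurePreserving (mirror w) volume volume
    refine ⟨(mirror w).continuous_of_finiteDimensional.measurable, ?_⟩
    rw [Measure.map_linearMap_addHaar_eq_smul_addHaar volume (left_ne_zero_of_mul_eq_one hdet)]
    rcases mul_self_eq_one_iff.1 hdet with h | h <;> simp [h]
  · show mirror w u = e
    have h1 : w ⬝ᵥ u = e ⬝ᵥ u - 1 := by simp only [w, sub_dotProduct, hu]
    have he : e ⬝ᵥ e = 1 := by simp [e, lastAxis]
    have h2 : w ⬝ᵥ w = 2 - 2 * (e ⬝ᵥ u) := by
      simp only [w, sub_dotProduct, dotProduct_sub, hu, he, dotProduct_comm u e]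
      ring
    rcases eq_or_ne (w ⬝ᵥ w) 0 with h | h
    · have hw : w = 0 := dotProduct_self_eq_zero.1 h
      have : e = u := sub_eq_zero.1 hw
      simp [mirror, hw, this]
    · show u - (2 * (w ⬝ᵥ u) / (w ⬝ᵥ w)) • w = e
      rw [show 2 * (w ⬝ᵥ u) / (w ⬝ᵥ w) = -1 by rw [div_eq_iff h, h1, h2]; ring]
      simp [w]

/-- The slice radius relative to the ball of the slices' dimension. -/
noncomputable def radius (A : Set (Pt (k + 1) × ℝ)) : ℝ → ℝ :=
  (Ioo (-1 : ℝ) 1).indicator fun t => rad (P237.slice A t) / rad (unitBall (k + 1))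

theorem rad_unitBall_pos (k : ℕ) : 0 < rad (unitBall (k + 1)) :=
  Full.rad_pos (cvx_unitBall _)

theorem rad_unitBall_pow (k : ℕ) : rad (unitBall (k + 1)) ^ (k + 1) = unitBallVolume (k + 1) := by
  rw [Full.rad_pow, volume_unitBall]

theorem radius_nonneg (A : Set (Pt (k + 1) × ℝ)) (t : ℝ) : 0 ≤ radius A t :=
  indicator_nonneg (fun t _ => div_nonneg (Full.rad_nonneg _) (rad_unitBall_pos k).le) t

/-- The interval of heights of a symmetric body with support value one. -/
theorem heights {K : Set (Pt (k + 2))} (hK : P227.Zono.Body K)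
    (h1 : P227.Zono.supportVal K (lastAxis (k + 1)) = 1) :
    Solid (snocLin (k + 1) ⁻¹' K) ∧ lo (snocLin (k + 1) ⁻¹' K) = -1 ∧
      hi (snocLin (k + 1) ⁻¹' K) = 1 := by
  set A := snocLin (k + 1) ⁻¹' K
  have hA : Solid A := by
    have h := measurePreserving_solid hK (snocLin (k + 1))
    rwa [(snocLin (k + 1)).image_symm_eq_preimage K] at h
  have e : Prod.snd '' A = (fun x => lastAxis (k + 1) ⬝ᵥ x) '' K := by
    conv_rhs => rw [← image_preimage_eq K (snocLin (k + 1)).surjective, ← image_comp]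
    exact image_congr fun p _ => (lastAxis_dot_snoc p.1 p.2).symm
  have hhi : hi A = 1 := by rw [hi, e, ← h1]; rfl
  refine ⟨hA, ?_, hhi⟩
  have hs := hA.snd_image
  have hneg : ∀ s ∈ Prod.snd '' A, -s ∈ Prod.snd '' A := by
    rintro _ ⟨p, hp, rfl⟩
    refine ⟨-p, ?_, rfl⟩
    show snocLin (k + 1) (-p) ∈ K
    rw [map_neg]
    exact hK.neg_mem _ hp
  have a := hneg _ (hs ▸ ⟨le_rfl, hA.lo_lt_hi.le⟩ : lo A ∈ Prod.snd '' A)
  have b := hneg _ (hs ▸ ⟨hA.lo_lt_hi.le, le_rfl⟩ : hi A ∈ Prod.snd '' A)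
  rw [hs, mem_Icc, hhi] at a b
  linarith [a.2, b.1]

theorem semicircle_le_radius {K : Set (Pt (k + 2))} (hball : unitBall (k + 2) ⊆ K)
    (hA : Solid (snocLin (k + 1) ⁻¹' K)) {t : ℝ} (ht : t ∈ Icc (-1 : ℝ) 1) :
    semicircle t ≤ radius (snocLin (k + 1) ⁻¹' K) t := by
  by_cases hto : t ∈ Ioo (-1 : ℝ) 1
  · have h2 : 0 ≤ 1 - t ^ 2 := by nlinarith [hto.1, hto.2]
    rw [radius, indicator_of_mem hto, le_div_iff₀ (rad_unitBall_pos k),
      ← Full.rad_smul _ (semicircle_nonneg t)]
    refine Real.rpow_le_rpow ENNReal.toReal_nonneg (ENNReal.toReal_mono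
      (hA.isCompact_slice t).measure_lt_top.ne (measure_mono ?_)) (by positivity)
    rintro _ ⟨w, hw, rfl⟩
    apply hball
    show (Fin.snoc (semicircle t • w) t : Pt (k + 2)) ⬝ᵥ
      (Fin.snoc (semicircle t • w) t : Pt (k + 2)) ≤ 1
    have hw' : w ⬝ᵥ w ≤ 1 := hw
    have hsq : semicircle t ^ 2 = 1 - t ^ 2 := Real.sq_sqrt h2
    simp only [dotProduct] at hw' ⊢
    rw [Fin.sum_univ_castSucc]
    simp only [Fin.snoc_castSucc, Fin.snoc_last, Pi.smul_apply, smul_eq_mul]
    have : ∑ i, semicircle t * w i * (semicircle t * w i) = semicircle t ^ 2 * ∑ i, w i * w i := by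
      rw [Finset.mul_sum]
      exact Finset.sum_congr rfl fun i _ => by ring
    rw [this]
    nlinarith [mul_le_mul_of_nonneg_left hw' (sq_nonneg (semicircle t))]
  · have hz : semicircle t = 0 := by
      rw [semicircle]
      refine Real.sqrt_eq_zero'.2 ?_
      rcases not_and_or.1 hto with h | h
      · nlinarith [not_lt.1 h, ht.1]
      · nlinarith [not_lt.1 h, ht.2]
    rw [hz]
    exact radius_nonneg _ _

theorem concave_radius {A : Set (Pt (k + 1) × ℝ)} (hA : Solid A) (hlo : lo A = -1) (hhi : hi A = 1) :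
    ConcaveOn ℝ (Icc (-1) 1) (radius A) := by
  refine ⟨convex_Icc _ _, fun x hx y hy a b ha hb hab => ?_⟩
  rcases ha.eq_or_lt with rfl | ha'
  · simp [show b = 1 by linarith]
  rcases hb.eq_or_lt with rfl | hb'
  · simp [show a = 1 by linarith]
  simp only [smul_eq_mul]
  set z := a * x + b * y
  have hρ := rad_unitBall_pos k
  have hc := hA.concave_rad
  rw [hlo, hhi] at hc
  by_cases hz : z ∈ Ioo (-1 : ℝ) 1
  · -- an interior height against an end point
    have one : ∀ {p q c d : ℝ}, p ∈ Icc (-1 : ℝ) 1 → q ∈ Ioo (-1 : ℝ) 1 → 0 ≤ c → 0 < d →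
        c + d = 1 → c * p + d * q = z → d * rad (P237.slice A q) ≤ rad (P237.slice A z) := by
      intro p q c d hp hq hc0 hd hcd he
      rw [← hlo, ← hhi, ← hA.snd_image] at hp
      obtain ⟨⟨w, p'⟩, hw, rfl⟩ := hp
      rw [← Full.rad_smul _ hd.le]
      refine le_trans (le_of_eq ?_) (Real.rpow_le_rpow ENNReal.toReal_nonneg (ENNReal.toReal_mono
        (hA.isCompact_slice z).measure_lt_top.ne (measure_mono (he ▸ ((Set.add_subset_add_right
          (smul_set_mono (singleton_subset_iff.2 (show w ∈ P237.slice A p' from hw)))).trans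
            (hA.slice_combo hc0 hd.le hcd p' q))))) (by positivity))
      rw [rad, smul_set_singleton, singleton_add, image_add_left, measure_preimage_add]
    rcases Classical.em (x ∈ Ioo (-1 : ℝ) 1) with hx' | hx' <;>
      rcases Classical.em (y ∈ Ioo (-1 : ℝ) 1) with hy' | hy'
    · rw [radius, indicator_of_mem hz, indicator_of_mem hx', indicator_of_mem hy', ← mul_div_assoc,
        ← mul_div_assoc, ← add_div]
      exact div_le_div_of_nonneg_right (hc.2 hx' hy' ha hb hab) hρ.le
    · rw [radius, indicator_of_mem hz, indicator_of_mem hx', indicator_of_notMem hy', mul_zero,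
        add_zero, ← mul_div_assoc]
      exact div_le_div_of_nonneg_right
        (one hy hx' hb ha' (by linarith) (add_comm _ _)) hρ.le
    · rw [radius, indicator_of_mem hz, indicator_of_notMem hx', indicator_of_mem hy', mul_zero,
        zero_add, ← mul_div_assoc]
      exact div_le_div_of_nonneg_right (one hx hy' ha hb' hab rfl) hρ.le
    · rw [radius, indicator_of_mem hz, indicator_of_notMem hx', indicator_of_notMem hy', mul_zero,
        mul_zero, add_zero]
      exact div_nonneg (Full.rad_nonneg _) hρ.le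
  · have hxy : x ∉ Ioo (-1 : ℝ) 1 ∧ y ∉ Ioo (-1 : ℝ) 1 := by
      refine ⟨fun h => hz ⟨?_, ?_⟩, fun h => hz ⟨?_, ?_⟩⟩ <;>
        nlinarith [h.1, h.2, hx.1, hx.2, hy.1, hy.2]
    simp [radius, indicator_of_notMem hz, indicator_of_notMem hxy.1, indicator_of_notMem hxy.2]

theorem slices_ae {A : Set (Pt (k + 1) × ℝ)} (hA : Solid A) (hlo : lo A = -1) (hhi : hi A = 1) :
    ∀ᵐ t, sliceVol A t = unitBallVolume (k + 1) * profileArea (k + 1) (radius A) t := by
  filter_upwards [Measure.ae_ne volume (-1 : ℝ), Measure.ae_ne volume (1 : ℝ)] with t h1 h2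
  by_cases ht : t ∈ Icc (-1 : ℝ) 1
  · have hto : t ∈ Ioo (-1 : ℝ) 1 := ⟨lt_of_le_of_ne ht.1 (Ne.symm h1), lt_of_le_of_ne ht.2 h2⟩
    rw [profileArea, indicator_of_mem ht, radius, indicator_of_mem hto, div_pow, ← rad_unitBall_pow,
      mul_div_cancel₀ _ (pow_pos (rad_unitBall_pos k) _).ne', Solid.sliceVol_eq]
  · rw [profileArea, indicator_of_notMem ht, mul_zero, hA.sliceVol_eq_zero (by rwa [hlo, hhi])]

theorem integral_profileArea (b : ℕ) (r : ℝ → ℝ) :
    ∫ t, profileArea b r t = ∫ t in (-1 : ℝ)..1, r t ^ b := by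
  rw [profileArea, integral_indicator measurableSet_Icc, integral_Icc_eq_integral_Ioc,
    intervalIntegral.integral_of_le (by norm_num : (-1 : ℝ) ≤ 1)]

/-- The slice radius of `K` across a contact direction `u`. -/
theorem exists_profile {P : ℝ} (hP : 0 ≤ P)
    (hIH : ∀ L : Set (Pt (k + 1)), Cvx L → P ≤ ratio L) {K : Set (Pt (k + 2))}
    (hK : P227.Zono.Body K) (hball : unitBall (k + 2) ⊆ K) {u : Pt (k + 2)} (hu : u ⬝ᵥ u = 1)
    (h1 : P227.Zono.supportVal K u = 1) :
    ∃ r : ℝ → ℝ, (∀ t, r (-t) = r t) ∧ ConcaveOn ℝ (Icc (-1) 1) r ∧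
      (∀ t ∈ Icc (-1 : ℝ) 1, semicircle t ≤ r t) ∧
      (volume K).toReal = unitBallVolume (k + 1) * (∫ t in (-1 : ℝ)..1, r t ^ (k + 1)) ∧
      (∀ φ : ℝ → ℝ, Continuous φ → ∫ x in K, φ (u ⬝ᵥ x)
        = ∫ t, unitBallVolume (k + 1) * profileArea (k + 1) r t * φ t) ∧
      P * (unitBallVolume (k + 1) ^ k * (∫ t in (-1 : ℝ)..1, r t ^ k) ^ (k + 1))
        ≤ gain (gainBody K) u := by
  obtain ⟨R, hR, hinv, hadj, hRu⟩ := exists_reflection hu
  set K' := R '' K with hK'def
  have hK' : P227.Zono.Body K' := Full.body_image R hK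
  have hmem : ∀ x, x ∈ K' ↔ R x ∈ K := fun x =>
    ⟨fun ⟨y, hy, he⟩ => by rwa [← he, hinv], fun hx => ⟨R x, hx, hinv x⟩⟩
  have hsupp : P227.Zono.supportVal K' (lastAxis (k + 1)) = 1 := by
    rw [← h1, P227.Zono.supportVal, P227.Zono.supportVal, hK'def, image_image]
    congr 1
    refine image_congr fun x _ => ?_
    rw [← hRu, hadj, hinv]
  have hball' : unitBall (k + 2) ⊆ K' := fun x hx => (hmem x).2 (hball (show R x ⬝ᵥ R x ≤ 1 by
    rw [hadj, hinv]; exact hx))
  have hRv : ∀ S : Set (Pt (k + 2)), (volume (R '' S)).toReal = 1 * (volume S).toReal := fun S => by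
    rw [one_mul, R.image_eq_preimage_symm S, show (R.symm : Pt (k + 2) → Pt (k + 2)) = R from
      funext fun x => R.symm_apply_eq.2 (hinv x).symm, hR.measure_preimage_emb
      R.toContinuousLinearEquiv.toHomeomorph.measurableEmbedding]
  set T : (Pt (k + 1) × ℝ) ≃ₗ[ℝ] Pt (k + 2) := (snocLin (k + 1)).trans R
  have hT : MeasurePreserving T volume volume := hR.comp (measurePreserving_snocLin (k + 1))
  have hTu : ∀ p, u ⬝ᵥ T p = p.2 := fun p => by
    show u ⬝ᵥ R (snocLin (k + 1) p) = p.2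
    rw [← hadj, hRu]
    exact lastAxis_dot_snoc p.1 p.2
  set A := snocLin (k + 1) ⁻¹' K'
  have hTA : T.symm '' K = A := by
    rw [T.image_symm_eq_preimage]
    ext p
    exact (hmem _).symm
  obtain ⟨hA, hlo, hhi⟩ := heights hK' hsupp
  set r := radius A
  have hae := slices_ae hA hlo hhi
  refine ⟨r, fun t => ?_, concave_radius hA hlo hhi,
    fun t ht => semicircle_le_radius hball' hA ht, ?_, fun φ hφ => ?_, ?_⟩
  · have hs : P237.slice A (-t) = -P237.slice A t := by
      have hn : ∀ p, p ∈ A → -p ∈ A := fun p hp => by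
        show snocLin (k + 1) (-p) ∈ K'
        rw [map_neg]; exact hK'.neg_mem _ hp
      ext y
      exact ⟨fun hy => by simpa [P237.slice] using hn _ hy,
        fun hy => by simpa [P237.slice] using hn (-y, t) (Set.mem_neg.1 hy)⟩
    by_cases ht : t ∈ Ioo (-1 : ℝ) 1
    · have ht' : -t ∈ Ioo (-1 : ℝ) 1 := ⟨by linarith [ht.2], by linarith [ht.1]⟩
      simp only [r, radius, indicator_of_mem ht, indicator_of_mem ht', hs, rad, Measure.measure_neg]
    · have ht' : -t ∉ Ioo (-1 : ℝ) 1 := fun h => ht ⟨by linarith [h.2], by linarith [h.1]⟩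
      simp only [r, radius, indicator_of_notMem ht, indicator_of_notMem ht']
  · rw [← integral_profileArea, ← integral_const_mul, ← integral_congr_ae hae, hA.integral_sliceVol]
    show _ = (volume A).toReal
    rw [← hTA, T.image_symm_eq_preimage, hT.measure_preimage_emb
      T.toContinuousLinearEquiv.toHomeomorph.measurableEmbedding]
  · rw [integral_slices hK hT hTu hφ, hTA]
    refine integral_congr_ae ?_
    filter_upwards [hae] with t ht
    rw [ht]
  · have hg := gain_gainBody_lastAxis hP hIH (Cvx.of_body hK')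
    have hgb : gainBody K' = R '' gainBody K := by
      ext y
      constructor
      · intro hy
        refine ⟨R y, fun v => ?_, hinv y⟩
        rw [hadj, ← one_mul (gain K v), ← gain_image R hRv]
        exact hy (R v)
      · rintro ⟨z, hz, rfl⟩ v
        conv_rhs => rw [← hinv v, hK'def, gain_image R hRv, one_mul]
        rw [hadj]
        exact hz (R v)
    rw [hgb, ← hRu, gain_image R hRv, one_mul, hlo, hhi] at hg
    refine le_trans (le_of_eq ?_) hg
    congr 1
    rw [← rad_unitBall_pow, ← pow_mul, mul_comm (k + 1) k, pow_mul, ← mul_pow]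
    congr 1
    rw [intervalIntegral.integral_of_le (by norm_num : (-1 : ℝ) ≤ 1),
      integral_Ioc_eq_integral_Ioo, ← integral_const_mul]
    refine setIntegral_congr_fun measurableSet_Ioo fun t ht => ?_
    simp only [r, radius, indicator_of_mem ht, div_pow]
    rw [mul_div_cancel₀ _ (pow_pos (rad_unitBall_pos k) _).ne']

end Vale.Agent.P237.AllN
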