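import Vale.Agent.P237.AllN.Defs
import Vale.Agent.P237.Full.Slices
import Vale.Agent.P237.Class

/-!
# P237 in all dimensions: slices of the body and the shadow of its projection body
-/

namespace Vale.Agent.P237.AllN

open MeasureTheory Set Function Topology Filter
open scoped ENNReal NNReal Pointwise
open Full (Cvx Solid lo hi sliceVol rad ratio mixedVol)

theorem gain_slices {k : ℕ} {A : Set (Pt (k + 1) × ℝ)} (hA : IsCompact A) (v : Pt (k + 1)) :
    Integrable (fun t => gain (P237.slice A t) v) ∧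
      gain A (v, 0) = ∫ t, gain (P237.slice A t) v := by
  have hS : IsCompact (swept A ((v, 0) : Pt (k + 1) × ℝ)) := isCompact_swept hA _
  have hfub : ∀ {S : Set (Pt (k + 1) × ℝ)}, IsCompact S →
      Integrable (fun t => (volume (P237.slice S t)).toReal) ∧
        ∫ t, (volume (P237.slice S t)).toReal = (volume S).toReal := by
    intro S hS
    have hm : Measurable fun t => volume (P237.slice S t) :=
      measurable_measure_prodMk_right (μ := (volume : Measure (Pt (k + 1)))) hS.measurableSet
    have hne : ∫⁻ t, volume (P237.slice S t) ≠ ⊤ := by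
      rw [← volume_eq_lintegral_slice hS.measurableSet]; exact hS.measure_lt_top.ne
    refine ⟨integrable_toReal_of_lintegral_ne_top hm.aemeasurable hne, ?_⟩
    rw [integral_toReal hm.aemeasurable (ae_lt_top hm hne),
      ← volume_eq_lintegral_slice hS.measurableSet]
  have e : ∀ t, P237.slice (swept A ((v, 0) : Pt (k + 1) × ℝ)) t = swept (P237.slice A t) v := by
    intro t
    ext y
    constructor
    · rintro ⟨⟨⟨x, s⟩, τ⟩, ⟨hx, hτ⟩, he⟩
      simp only [Prod.smul_mk, smul_zero, Prod.mk_add_mk, add_zero, Prod.mk.injEq] at he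
      obtain ⟨rfl, rfl⟩ := he
      exact ⟨(x, τ), ⟨hx, hτ⟩, rfl⟩
    · rintro ⟨⟨x, τ⟩, ⟨hx, hτ⟩, rfl⟩
      exact ⟨((x, t), τ), ⟨hx, hτ⟩, by simp⟩
  obtain ⟨i1, h1⟩ := hfub hS
  obtain ⟨i2, h2⟩ := hfub hA
  simp only [e] at i1 h1
  exact ⟨i1.sub i2, by rw [gain, ← h1, ← h2, ← integral_sub i1 i2]; rfl⟩

/-- A translate of an inner slice has the origin inside. -/
theorem exists_centred_slice {k : ℕ} {A : Set (Pt (k + 1) × ℝ)} (hA : Solid A) {t : ℝ}
    (ht : t ∈ Ioo (lo A) (hi A)) :
    ∃ L : Set (Pt (k + 1)), Cvx L ∧ (∀ u, gain L u = gain (P237.slice A t) u) ∧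
      rad L = rad (P237.slice A t) := by
  have hc : Convex ℝ (P237.slice A t) := fun x hx y hy a b ha hb hab => by
    have h := hA.convex hx hy ha hb hab
    show (a • x + b • y, t) ∈ A
    rwa [Prod.smul_mk, Prod.smul_mk, Prod.mk_add_mk, ← add_smul, hab, one_smul] at h
  have hne : (interior (P237.slice A t)).Nonempty := by
    by_contra h
    have h0 := (hc.addHaar_frontier (μ := (volume : Measure (Pt (k + 1)))))
    rw [frontier, (hA.isCompact_slice t).isClosed.closure_eq,
      not_nonempty_iff_eq_empty.1 h, sdiff_empty] at h0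
    have := hA.slice_pos ht
    simp [sliceVol, h0] at this
  obtain ⟨x, hx⟩ := hne
  refine ⟨(fun y => y + -x) '' P237.slice A t, ⟨(hA.isCompact_slice t).image (by fun_prop),
    by simpa [add_comm] using hc.translate (-x), ?_⟩, fun u => gain_translate _ _ u, ?_⟩
  · rw [image_add_right, neg_neg]
    exact (continuous_add_const x).continuousAt.preimage_mem_nhds
      (by simpa using mem_interior_iff_mem_nhds.1 hx)
  · rw [rad, rad, volume_translate]

theorem measurable_gain_slice {k : ℕ} {A : Set (Pt (k + 1) × ℝ)} (hA : IsCompact A) (v : Pt (k + 1)) :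
    Measurable fun t => gain (P237.slice A t) v := by
  have hm : ∀ {S : Set (Pt (k + 1) × ℝ)}, IsCompact S → Measurable fun t => (volume (P237.slice S t)).toReal :=
    fun hS => (measurable_measure_prodMk_right (μ := (volume : Measure (Pt (k + 1))))
      hS.measurableSet).ennreal_toReal
  have e : (fun t => gain (P237.slice A t) v) = fun t =>
      (volume (P237.slice (swept A ((v, 0) : Pt (k + 1) × ℝ)) t)).toReal
        - (volume (P237.slice A t)).toReal := by
    funext t
    rw [gain]
    congr 3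
    ext y
    constructor
    · rintro ⟨⟨x, τ⟩, ⟨hx, hτ⟩, rfl⟩
      exact ⟨((x, t), τ), ⟨hx, hτ⟩, by simp⟩
    · rintro ⟨⟨⟨x, s⟩, τ⟩, ⟨hx, hτ⟩, he⟩
      simp only [Prod.smul_mk, smul_zero, Prod.mk_add_mk, add_zero, Prod.mk.injEq] at he
      obtain ⟨rfl, rfl⟩ := he
      exact ⟨(x, τ), ⟨hx, hτ⟩, rfl⟩
  rw [e]
  exact (hm (isCompact_swept hA _)).sub (hm hA)

theorem measurable_uncurry_slice {k : ℕ} {φ : ℝ → Pt (k + 1) → ℝ} (hc : ∀ t, Continuous (φ t))
    (hm : ∀ v, Measurable fun t => φ t v) : Measurable (uncurry φ) :=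
  (measurable_uncurry_of_continuous_of_measurable (ι := Pt (k + 1)) (α := ℝ) (β := ℝ)
    (u := fun v t => φ t v) hc hm).comp measurable_swap

theorem ratio_rad {k : ℕ} {P : ℝ} (hP : 0 ≤ P)
    (hIH : ∀ L : Set (Pt (k + 1)), Cvx L → P ≤ ratio L) {L : Set (Pt (k + 1))} (hL : Cvx L) :
    P ^ (((k + 1 : ℕ) : ℝ)⁻¹) * rad L ^ k ≤ rad (gainBody L) := by
  have h := hIH L hL
  rw [Full.ratio, le_div_iff₀ (pow_pos hL.volume_pos _), ← Full.rad_pow L, ← pow_mul, mul_comm (k + 1) k,
    pow_mul, ← Full.rad_pow (gainBody L)] at h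
  refine le_of_pow_le_pow_left₀ k.succ_ne_zero (Full.rad_nonneg _) ?_
  rwa [mul_pow, Real.rpow_inv_natCast_pow hP k.succ_ne_zero]

/-- A shadow whose support values are the integrals of the slice gains is at least as large as the
integral of the radii of the slices' projection bodies. -/
theorem shadow_ge {k : ℕ} {P : ℝ} (hP : 0 ≤ P)
    (hIH : ∀ L : Set (Pt (k + 1)), Cvx L → P ≤ ratio L)
    {A : Set (Pt (k + 1) × ℝ)} (hA : Solid A) {W : Set (Pt (k + 1))} (hW : Cvx W)
    (hsupp : ∀ v : Pt (k + 1), P227.Zono.supportVal W v = ∫ t, gain (P237.slice A t) v) :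
    P ^ (((k + 1 : ℕ) : ℝ)⁻¹) * ∫ t in Ioo (lo A) (hi A), rad (P237.slice A t) ^ k ≤ rad W := by
  set I := Ioo (lo A) (hi A)
  set P' := P ^ (((k + 1 : ℕ) : ℝ)⁻¹)
  have hP' : 0 ≤ P' := Real.rpow_nonneg hP _
  have hcvx : ∀ t ∈ I, ∃ L : Set (Pt (k + 1)), Cvx L ∧
      (∀ u, gain L u = gain (P237.slice A t) u) ∧ rad L = rad (P237.slice A t) :=
    fun t ht => exists_centred_slice hA ht
  obtain ⟨C, hC0, hC⟩ := hW.exists_normal_bound
  set φ : ℝ → Pt (k + 1) → ℝ := fun t v => I.indicator (fun t => gain (P237.slice A t) v) t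
  have hφc : ∀ t, Continuous (φ t) := fun t => by
    by_cases ht : t ∈ I
    · obtain ⟨L, hL, hg, -⟩ := hcvx t ht
      refine (hL.continuous_gain).congr fun v => ?_
      simp [φ, indicator_of_mem ht, hg]
    · simp [φ, indicator_of_notMem ht, continuous_const]
  have hφm : ∀ v, Measurable fun t => φ t v := fun v =>
    (measurable_gain_slice hA.compact v).indicator measurableSet_Ioo
  have hjoint : Measurable (uncurry φ) := measurable_uncurry_slice hφc hφm
  set F : Pt (k + 1) → ℝ → ℝ := fun x t => φ t (P227.Zono.normalAt W x)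
  set S := Prod.fst '' A
  have hcomp : IsCompact (S + Metric.closedBall (0 : Pt (k + 1)) C) :=
    (hA.compact.image continuous_fst).add (isCompact_closedBall _ _)
  set M := (volume (S + Metric.closedBall (0 : Pt (k + 1)) C)).toReal
  have hsl : ∀ t, P237.slice A t ⊆ S + Metric.closedBall (0 : Pt (k + 1)) C := fun t y hy =>
    ⟨y, ⟨(y, t), hy, rfl⟩, 0, by simpa using hC0, add_zero y⟩
  have hbound : ∀ x t, ‖F x t‖ ≤ M := fun x t => by
    by_cases ht : t ∈ I
    · simp only [F, φ, indicator_of_mem ht, Real.norm_eq_abs]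
      rw [abs_of_nonneg (gain_nonneg (hA.isCompact_slice t) _), gain]
      refine le_trans (sub_le_self _ ENNReal.toReal_nonneg) (ENNReal.toReal_mono
        hcomp.measure_lt_top.ne (measure_mono ?_))
      rintro _ ⟨⟨y, τ⟩, ⟨hy, hτ⟩, rfl⟩
      refine ⟨y, ⟨(y, t), hy, rfl⟩, τ • P227.Zono.normalAt W x, ?_, rfl⟩
      rw [mem_closedBall_zero_iff, norm_smul, Real.norm_eq_abs, abs_of_nonneg hτ.1]
      exact (mul_le_of_le_one_left (norm_nonneg _) hτ.2).trans (hC x)
    · simp [F, φ, indicator_of_notMem ht, M, ENNReal.toReal_nonneg]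
  have hint : Integrable (uncurry F) ((volume.restrict W).prod (volume.restrict I)) := by
    have : IsFiniteMeasure (volume.restrict W) :=
      isFiniteMeasure_restrict.2 hW.compact.measure_lt_top.ne
    have : IsFiniteMeasure (volume.restrict I) := isFiniteMeasure_restrict.2 measure_Ioo_lt_top.ne
    refine Integrable.of_bound ?_ M (Eventually.of_forall fun p => hbound p.1 p.2)
    exact (hjoint.comp (measurable_snd.prodMk
      ((P227.Zono.measurable_normalAt W).comp measurable_fst))).aestronglyMeasurable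
  have hsuppI : ∀ v : Pt (k + 1), P227.Zono.supportVal W v = ∫ t in I, φ t v := by
    intro v
    rw [hsupp, setIntegral_congr_fun measurableSet_Ioo fun t ht => indicator_of_mem ht _,
      ← integral_Icc_eq_integral_Ioo]
    refine (setIntegral_eq_integral_of_forall_compl_eq_zero fun t ht => ?_).symm
    have : P237.slice A t = ∅ := eq_empty_of_forall_notMem fun x hx => ht (hA.mem_Icc hx)
    simp [gain, swept, this]
  have key : rad W ^ k * (P' * ∫ t in I, rad (P237.slice A t) ^ k) ≤ rad W ^ k * rad W := by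
    rw [← pow_succ, Full.rad_pow (m := k) W, ← Full.mixedVol_self hW, Full.mixedVol]
    simp only [hsuppI]
    rw [integral_integral_swap hint, ← integral_const_mul, ← integral_const_mul]
    have hM : Integrable (fun t => ∫ x, F x t ∂(volume.restrict W)) (volume.restrict I) :=
      hint.integral_prod_right
    refine setIntegral_mono_on ?_ hM measurableSet_Ioo fun t ht => ?_
    · have hm : Measurable fun t => rad (P237.slice A t) := by
        show Measurable fun t => (volume (P237.slice A t)).toReal ^ (((k + 1 : ℕ) : ℝ)⁻¹)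
        exact hA.measurable_sliceVol.pow_const _
      refine Measure.integrableOn_of_bounded
        (M := rad W ^ k * (P' * rad (S + Metric.closedBall (0 : Pt (k + 1)) C) ^ k))
        measure_Ioo_lt_top.ne (((hm.pow_const k).const_mul P').const_mul (rad W ^ k)).aestronglyMeasurable
        (Eventually.of_forall fun t => ?_)
      have hWn := Full.rad_nonneg W
      have htn := Full.rad_nonneg (P237.slice A t)
      rw [Real.norm_eq_abs, abs_of_nonneg (by positivity)]
      gcongr
      exact Real.rpow_le_rpow ENNReal.toReal_nonneg (ENNReal.toReal_mono hcomp.measure_lt_top.ne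
        (measure_mono (hsl t))) (by positivity)
    · obtain ⟨L, hL, hg, hr⟩ := hcvx t ht
      have h := Full.minkowski hW hL.cvx_gainBody hL.zd_gainBody
      have e : ∫ x in W, F x t = mixedVol W (gainBody L) := by
        refine setIntegral_congr_fun hW.compact.measurableSet fun x _ => ?_
        simp [F, φ, indicator_of_mem ht, hL.supportVal_gainBody, hg]
      show _ ≤ ∫ x in W, F x t
      rw [e]
      refine le_trans (mul_le_mul_of_nonneg_left ?_ (pow_nonneg (Full.rad_nonneg W) _)) h
      rw [← hr]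
      exact ratio_rad hP hIH hL
  exact le_of_mul_le_mul_left key (pow_pos (Full.rad_pos hW) _)

/-- The last coordinate axis. -/
def lastAxis (n : ℕ) : Pt (n + 1) := Pi.single (Fin.last n) 1

theorem lastAxis_dot_snoc {n : ℕ} (y : Pt n) (t : ℝ) :
    lastAxis n ⬝ᵥ (Fin.snoc y t : Pt (n + 1)) = t := by
  simp [lastAxis, single_dotProduct]

theorem gain_gainBody_lastAxis {k : ℕ} {P : ℝ} (hP : 0 ≤ P)
    (hIH : ∀ L : Set (Pt (k + 1)), Cvx L → P ≤ ratio L) {K : Set (Pt (k + 2))} (hK : Cvx K) :
    P * (∫ t in Ioo (lo (snocLin (k + 1) ⁻¹' K)) (hi (snocLin (k + 1) ⁻¹' K)),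
        rad (P237.slice (snocLin (k + 1) ⁻¹' K) t) ^ k) ^ (k + 1)
      ≤ gain (gainBody K) (lastAxis (k + 1)) := by
  set Sc := (snocLin (k + 1)).toContinuousLinearEquiv
  set A : Set (Pt (k + 1) × ℝ) := snocLin (k + 1) ⁻¹' K
  have hsymm : (snocLin (k + 1)).symm '' K = A := (snocLin (k + 1)).symm.image_eq_preimage_symm K
  have hA : Solid A :=
    ⟨hsymm ▸ hK.compact.image (snocLin (k + 1)).symm.toLinearMap.continuous_of_finiteDimensional,
    hK.convex.linear_preimage (snocLin (k + 1)).toLinearMap,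
    Sc.continuous.continuousAt.preimage_mem_nhds (by rw [map_zero]; exact hK.nhds)⟩
  have hG := hK.cvx_gainBody
  set G' : Set (Pt (k + 1) × ℝ) := snocLin (k + 1) ⁻¹' gainBody K
  have hsymm' : (snocLin (k + 1)).symm '' gainBody K = G' :=
    (snocLin (k + 1)).symm.image_eq_preimage_symm _
  have hG' : IsCompact G' :=
    hsymm' ▸ hG.compact.image (snocLin (k + 1)).symm.toLinearMap.continuous_of_finiteDimensional
  have hG'c : Convex ℝ G' := hG.convex.linear_preimage (snocLin (k + 1)).toLinearMap
  set W := Prod.fst '' G'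
  have hW : Cvx W := ⟨hG'.image continuous_fst, hG'c.linear_image (LinearMap.fst ℝ _ ℝ), by
    simpa using isOpenMap_fst.image_mem_nhds
      (show G' ∈ 𝓝 (0 : Pt (k + 1) × ℝ) from
        Sc.continuous.continuousAt.preimage_mem_nhds (by rw [map_zero]; exact hG.nhds))⟩
  have himg : ∀ S : Set (Pt (k + 2)), snocLin (k + 1) '' (snocLin (k + 1) ⁻¹' S) = S := fun S =>
    image_preimage_eq _ (snocLin (k + 1)).surjective
  have hvolS : ∀ S : Set (Pt (k + 1) × ℝ),
      (volume (snocLin (k + 1) '' S)).toReal = 1 * (volume S).toReal :=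
    fun S => by rw [volume_image_snocLin, one_mul]
  have haxis : snocLin (k + 1) ((0 : Pt (k + 1)), (1 : ℝ)) = lastAxis (k + 1) := by
    funext i
    refine Fin.lastCases ?_ (fun j => ?_) i <;> simp [lastAxis, snocLin_apply]
  have hgainW : gain (gainBody K) (lastAxis (k + 1)) = rad W ^ (k + 1) := by
    rw [← himg (gainBody K), ← haxis, gain_image (snocLin (k + 1)) hvolS,
      gain_vertical hG' hG'c zero_le_one, one_mul, one_mul]
    exact (Full.rad_pow (m := k) W).symm
  have hsupp : ∀ v : Pt (k + 1), P227.Zono.supportVal W v = ∫ t, gain (P237.slice A t) v := by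
    intro v
    rw [← (gain_slices hA.compact v).2, ← one_mul (gain A (v, 0)),
      ← gain_image (snocLin (k + 1)) hvolS, himg, ← hK.supportVal_gainBody, P227.Zono.supportVal,
      P227.Zono.supportVal, ← image_comp]
    conv_rhs => rw [← himg (gainBody K), ← image_comp]
    congr 1
    refine image_congr fun p _ => ?_
    simp only [Function.comp_apply, snocLin_apply, dotProduct]
    rw [Fin.sum_univ_castSucc (n := k + 1)]
    simp only [Fin.snoc_castSucc, Fin.snoc_last, zero_mul, add_zero]
  have h2 := shadow_ge hP hIH hA hW hsupp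
  have hnn : 0 ≤ ∫ t in Ioo (lo A) (hi A), rad (P237.slice A t) ^ k :=
    setIntegral_nonneg measurableSet_Ioo fun t _ => pow_nonneg (Full.rad_nonneg _) _
  rw [hgainW]
  refine le_trans (le_of_eq ?_) (pow_le_pow_left₀ (mul_nonneg (Real.rpow_nonneg hP _) hnn) h2 (k + 1))
  rw [mul_pow, Real.rpow_inv_natCast_pow hP k.succ_ne_zero]

end Vale.Agent.P237.AllN
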