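import Vale.Agent.P237.AllN.Profile
import Vale.Agent.P237.AllN.John
import Vale.Agent.P237.Full.Min

/-!
# P237 in all dimensions: the induction step from a gate

A gate is a functional `Φ` of the profile across a contact that is non-negative at one contact at
least (`Selects`) and that forces the ball whenever the profile is no better than the semicircle
(`SignFor`). Given a gate, Petty's inequality with equality cases passes from `ℝ^(k+1)` to
`ℝ^(k+2)`.
-/

namespace Vale.Agent.P237.AllN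

open MeasureTheory Set Function Topology
open scoped Pointwise
open Full (Cvx ratio)

/-- A slice radius over a contact of a body containing the unit ball. -/
structure Admissible (r : ℝ → ℝ) : Prop where
  even : ∀ t, r (-t) = r t
  concave : ConcaveOn ℝ (Icc (-1) 1) r
  above : ∀ t ∈ Icc (-1 : ℝ) 1, semicircle t ≤ r t

/-- `r` is at most as good as the semicircle for the moment quotient. -/
def NoBetter (b : ℕ) (r : ℝ → ℝ) : Prop :=
  (∫ t in (-1 : ℝ)..1, r t ^ (b - 1)) ^ b * (∫ t in (-1 : ℝ)..1, semicircle t ^ b) ^ (b - 1)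
    ≤ (∫ t in (-1 : ℝ)..1, semicircle t ^ (b - 1)) ^ b * (∫ t in (-1 : ℝ)..1, r t ^ b) ^ (b - 1)

/-- The gate is passed by one of the contacts. -/
def Selects (b : ℕ) (Φ : (ℝ → ℝ) → ℝ) : Prop :=
  ∀ K : Set (Pt (b + 1)), P227.Zono.Body K → unitBall (b + 1) ⊆ K →
  ∀ (N : ℕ) (u : Fin N → Pt (b + 1)) (c : Fin N → ℝ),
    (∀ i, 0 < c i) → (∀ i, u i ⬝ᵥ u i = 1) → (∀ i, P227.Zono.supportVal K (u i) = 1) →
    (∑ i, c i = (b : ℝ) + 1) → (∀ x, ∑ i, (c i * (u i ⬝ᵥ x)) • u i = x) →
  ∀ r : Fin N → ℝ → ℝ, (∀ i, Admissible (r i)) →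
    (∀ i, (volume K).toReal = unitBallVolume b * ∫ t in (-1 : ℝ)..1, r i t ^ b) →
    (∀ i (φ : ℝ → ℝ), Continuous φ → ∫ x in K, φ (u i ⬝ᵥ x)
      = ∫ t, unitBallVolume b * profileArea b (r i) t * φ t) →
    ∃ i, 0 ≤ Φ (r i)

/-- Passing the gate while being no better than the semicircle forces the semicircle. -/
def SignFor (b : ℕ) (Φ : (ℝ → ℝ) → ℝ) : Prop :=
  ∀ r : ℝ → ℝ, Admissible r → NoBetter b r → 0 ≤ Φ r → EqOn r semicircle (Ioo (-1) 1)

theorem eq_of_subset_volume {m : ℕ} {K E : Set (Pt (m + 1))} (hK : Cvx K) (hE : IsCompact E)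
    (hsub : E ⊆ K) (hv : (volume K).toReal ≤ (volume E).toReal) : K = E := by
  refine Subset.antisymm (fun x hx => ?_) hsub
  by_contra hxE
  have hcl : x ∈ closure (interior K) := by
    rw [hK.convex.closure_interior_eq_closure_of_nonempty_interior
      ⟨0, mem_interior_iff_mem_nhds.2 hK.nhds⟩]
    exact subset_closure hx
  obtain ⟨y, hy, hyE⟩ := mem_closure_iff.1 hcl Eᶜ hE.isClosed.isOpen_compl hxE
  have hpos : 0 < volume (K \ E) := ((hE.isClosed.isOpen_compl.inter isOpen_interior).measure_pos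
    volume ⟨y, hy, hyE⟩).trans_le (measure_mono fun z hz => ⟨interior_subset hz.2, hz.1⟩)
  rw [measure_sdiff hsub hE.measurableSet.nullMeasurableSet hE.measure_lt_top.ne] at hpos
  rw [ENNReal.toReal_le_toReal hK.compact.measure_lt_top.ne hE.measure_lt_top.ne] at hv
  exact hpos.ne' (tsub_eq_zero_of_le hv)

/-- A minimiser is an ellipsoid with the ratio of the ball. -/
theorem minimiser_ball {k : ℕ} (hIH : RatioBound k) {Φ : (ℝ → ℝ) → ℝ}
    (hsel : Selects (k + 1) Φ) (hsign : SignFor (k + 1) Φ) {K : Set (Pt (k + 2))}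
    (hK : P227.Zono.Body K) (hmin : ∀ L : Set (Pt (k + 2)), Cvx L → ratio K ≤ ratio L) :
    pettyConst (k + 2) ≤ ratio K ∧ (ratio K ≤ pettyConst (k + 2) →
      ∃ T : Pt (k + 2) ≃ₗ[ℝ] Pt (k + 2), K = T '' unitBall (k + 2)) := by
  obtain ⟨T, hT, hball, N, u, c, hcu, hsum, hdec⟩ := john hK
  set K' := T '' K
  have hmin' : ∀ L : Set (Pt (k + 2)), Cvx L → ratio K' ≤ ratio L := fun L hL =>
    (Full.ratio_image T K).le.trans (hmin L hL)
  obtain ⟨γ, hγ, -, hvol, hgain⟩ := Full.minimiser_structure hT hmin'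
  have hP := (pettyConst_pos k).le
  choose r hev hcv hab hV hmarg hG using fun i =>
    exists_profile hP hIH hT hball (hcu i).2.1 (hcu i).2.2
  obtain ⟨i, hi⟩ := hsel K' hT hball N u c (fun i => (hcu i).1) (fun i => (hcu i).2.1)
    (fun i => (hcu i).2.2) (by rw [hsum]) hdec r
    (fun i => ⟨hev i, hcv i, hab i⟩) hV hmarg
  set κ := unitBallVolume (k + 1)
  have hκ : 0 < κ := unitBallVolume_pos _
  set X := (∫ t in (-1 : ℝ)..1, r i t ^ k) ^ (k + 1)
  set Y := ∫ t in (-1 : ℝ)..1, r i t ^ (k + 1)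
  have hpos := (Cvx.of_body hT).volume_pos
  have hY : 0 < Y := pos_of_mul_pos_right (hV i ▸ hpos) hκ.le
  have hrat : ratio K' = γ / (κ * Y) ^ k := by
    rw [Full.ratio, hvol, hV i, pow_succ, mul_div_mul_right _ _ (by positivity : κ * Y ≠ 0)]
  have hge : pettyConst (k + 1) * (κ ^ k * X) ≤ γ := by
    have := hG i
    rwa [hgain, (hcu i).2.2, mul_one] at this
  have hball_eq : ratio K' ≤ pettyConst (k + 2) → K' = unitBall (k + 2) := by
    intro hle
    have hn : NoBetter (k + 1) (r i) := by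
      show (∫ t in (-1 : ℝ)..1, r i t ^ (k + 1 - 1)) ^ (k + 1) * _ ≤ _
      rw [Nat.add_sub_cancel]
      have hc := pettyConst_succ (Nat.succ_pos k)
      rw [Nat.succ_eq_add_one, Nat.add_sub_cancel] at hc
      rw [hrat, div_le_iff₀ (by positivity), mul_pow] at hle
      have hS : 0 ≤ (∫ t in (-1 : ℝ)..1, semicircle t ^ (k + 1)) ^ k :=
        pow_nonneg (intervalIntegral.integral_nonneg (by norm_num) fun t _ =>
          pow_nonneg (semicircle_nonneg t) _) k
      refine le_of_mul_le_mul_left (le_trans (le_of_eq ?_)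
        (le_trans (mul_le_mul_of_nonneg_right (hge.trans hle) hS) (le_of_eq ?_)))
        (mul_pos (pettyConst_pos k) (pow_pos hκ k))
      · ring
      · linear_combination (κ ^ k * Y ^ k) * hc
    have heq := hsign (r i) ⟨hev i, hcv i, hab i⟩ hn hi
    have hY' : Y = ∫ t in (-1 : ℝ)..1, semicircle t ^ (k + 1) := by
      simp only [Y, intervalIntegral.integral_of_le (by norm_num : (-1 : ℝ) ≤ 1),
        integral_Ioc_eq_integral_Ioo]
      exact setIntegral_congr_fun measurableSet_Ioo fun t ht => by rw [heq ht]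
    refine eq_of_subset_volume (Cvx.of_body hT) (isCompact_unitBall _) hball ?_
    rw [volume_unitBall, hV i]
    refine le_of_eq ?_
    show κ * Y = _
    rw [hY', integral_semicircle_pow, mul_div_cancel₀ _ hκ.ne']
  have hlow : pettyConst (k + 2) ≤ ratio K' := by
    by_contra h
    rw [hball_eq (not_le.1 h).le, ratio_unitBall (k + 1)] at h
    exact h le_rfl
  rw [show ratio K' = ratio K from Full.ratio_image T K] at hlow hball_eq
  exact ⟨hlow, fun h => ⟨T.symm, by rw [← hball_eq h]; simp [K', image_image]⟩⟩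

/-- The induction step. -/
theorem step {k : ℕ} (hIH : RatioBound k) {Φ : (ℝ → ℝ) → ℝ} (hsel : Selects (k + 1) Φ)
    (hsign : SignFor (k + 1) Φ) : RatioBound (k + 1) ∧ RatioEqual (k + 1) := by
  obtain ⟨K₀, hK₀, hmin₀⟩ := Full.exists_min (k + 1)
  have hlow : RatioBound (k + 1) := fun L hL =>
    (minimiser_ball hIH hsel hsign hK₀ hmin₀).1.trans (hmin₀ L hL)
  refine ⟨hlow, fun L hL hle => ?_⟩
  have h1 := Full.ratio_gainBody_le hL
  have h2 := Full.ratio_gainBody_le hL.cvx_gainBody
  obtain ⟨T, hT⟩ := (minimiser_ball hIH hsel hsign hL.cvx_gainBody.body_gainBody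
    fun M hM => (h2.trans (h1.trans hle)).trans (hlow M hM)).2 (h2.trans (h1.trans hle))
  obtain ⟨r, v, hr, he⟩ :=
    Full.homothetic_of_ratio_eq (k := k) hL (hle.trans (hlow _ hL.cvx_gainBody))
  refine ⟨T.trans (LinearEquiv.smulOfUnit (Units.mk0 r hr.ne')).symm, -(r⁻¹ • v), ?_⟩
  rw [hT] at he
  have e : ∀ x, (T.trans (LinearEquiv.smulOfUnit (Units.mk0 r hr.ne')).symm) x = r⁻¹ • T x :=
    fun x => rfl
  simp only [e]
  have h3 : (fun x => r⁻¹ • (x + -v)) '' (T '' unitBall (k + 2)) = L := by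
    rw [he, ← image_smul, image_image, image_image]
    conv_rhs => rw [← image_id' L]
    refine image_congr fun x _ => ?_
    rw [add_neg_cancel_right, inv_smul_smul₀ hr.ne']
  rw [← h3, image_image]
  refine image_congr fun x _ => ?_
  rw [smul_add, smul_neg]

/-- The plane, where the induction starts. -/
theorem ratioBound_one : RatioBound 1 := by
  intro L hL
  have h := planar_bound hL.compact hL.convex
  rw [Full.ratio, le_div_iff₀ (pow_pos hL.volume_pos _), pow_one, pettyConst_eq, unitBallVolume_one]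
  have := (unitBallVolume_pos (1 + 1)).ne'
  field_simp
  norm_num
  linarith

/-- Gates in every dimension give Petty's inequality with its equality cases. -/
theorem all_dimensions (Φ : ℕ → (ℝ → ℝ) → ℝ)
    (h : ∀ b, 2 ≤ b → Selects b (Φ b) ∧ SignFor b (Φ b)) :
    ∀ m, 2 ≤ m → RatioBound m ∧ RatioEqual m := by
  have key : ∀ j, RatioBound (j + 2) ∧ RatioEqual (j + 2) := by
    intro j
    induction j with
    | zero => exact step ratioBound_one (h 2 le_rfl).1 (h 2 le_rfl).2
    | succ j ih => exact step ih.1 (h (j + 3) (by omega)).1 (h (j + 3) (by omega)).2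
  intro m hm
  obtain ⟨j, rfl⟩ : ∃ j, m = j + 2 := ⟨m - 2, by omega⟩
  exact key j

end Vale.Agent.P237.AllN
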